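import Mathlib

namespace Vale.Agent.P238

/-- One edit operation on binary words: insert, delete or substitute a single symbol. -/
inductive Edit : List Bool → List Bool → Prop
  | ins (u v : List Bool) (a : Bool) : Edit (u ++ v) (u ++ a :: v)
  | del (u v : List Bool) (a : Bool) : Edit (u ++ a :: v) (u ++ v)
  | sub (u v : List Bool) (a b : Bool) : Edit (u ++ a :: v) (u ++ b :: v)

/-- `Edits k x y`: a sequence of `k` edit operations transforms `x` into `y`. -/
inductive Edits : ℕ → List Bool → List Bool → Prop
  | refl (x : List Bool) : Edits 0 x x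
  | step {k : ℕ} {x y z : List Bool} : Edit x y → Edits k y z → Edits (k + 1) x z

/-- The edit distance: the least number of edit operations transforming `x` into `y`. -/
noncomputable def ED (x y : List Bool) : ℕ := sInf {k | Edits k x y}

/-- The edit distance on the cube of binary words of length `n`, as a real number. -/
noncomputable def edCube {n : ℕ} (x y : Fin n → Bool) : ℝ := ED (List.ofFn x) (List.ofFn y)

/-- The distortion of a map from the cube of binary words of length `n` to `ℓ₁`. -/
noncomputable def distortion {n : ℕ} (f : (Fin n → Bool) → lp (fun _ : ℕ => ℝ) 1) : ℝ :=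
  (⨆ p : {p : (Fin n → Bool) × (Fin n → Bool) // p.1 ≠ p.2},
      ‖f p.1.1 - f p.1.2‖ / edCube p.1.1 p.1.2) *
    (⨆ p : {p : (Fin n → Bool) × (Fin n → Bool) // p.1 ≠ p.2},
      edCube p.1.1 p.1.2 / ‖f p.1.1 - f p.1.2‖)

/-- The least distortion of an injective map from binary words of length `n` to `ℓ₁`. -/
noncomputable def c1 (n : ℕ) : ℝ :=
  sInf {D | ∃ f : (Fin n → Bool) → lp (fun _ : ℕ => ℝ) 1, Function.Injective f ∧ D = distortion f}

end Vale.Agent.P238
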