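import Vale.Agent.P238.Lists
import Vale.Agent.P238.Defs

open List

namespace Vale.Agent.P238

theorem Edit.symm {x y : List Bool} (h : Edit x y) : Edit y x := by
  cases h with
  | ins u v a => exact .del u v a
  | del u v a => exact .ins u v a
  | sub u v a b => exact .sub u v b a

theorem Edit.cons {x y : List Bool} (h : Edit x y) (c : Bool) : Edit (c :: x) (c :: y) := by
  cases h with
  | ins u v a => exact .ins (c :: u) v a
  | del u v a => exact .del (c :: u) v a
  | sub u v a b => exact .sub (c :: u) v a b

theorem Edits.cons {k : ℕ} {x y : List Bool} (h : Edits k x y) (c : Bool) :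
    Edits k (c :: x) (c :: y) := by
  induction h with
  | refl x => exact .refl _
  | step h _ ih => exact .step (h.cons c) ih

theorem Edits.trans {k k' : ℕ} {x y z : List Bool} (h : Edits k x y) (h' : Edits k' y z) :
    Edits (k' + k) x z := by
  induction h with
  | refl x => exact h'
  | step h _ ih => exact .step h (ih h')

theorem Edits.symm {k : ℕ} {x y : List Bool} (h : Edits k x y) : Edits k y x := by
  induction h with
  | refl x => exact .refl _
  | step h _ ih =>
    have := ih.trans (.step h.symm (.refl _))
    rwa [zero_add, add_comm] at this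

theorem edits_of_sub {z x : List Bool} (h : z <+ x) :
    ∃ k, k + z.length = x.length ∧ Edits k x z := by
  induction h with
  | slnil => exact ⟨0, rfl, .refl _⟩
  | cons a _ ih =>
    obtain ⟨k, h1, h2⟩ := ih
    exact ⟨k + 1, by simp only [length_cons]; omega, .step (.del [] _ a) h2⟩
  | cons_cons a _ ih =>
    obtain ⟨k, h1, h2⟩ := ih
    exact ⟨k, by simp only [length_cons]; omega, h2.cons a⟩

theorem edits_of_cl {x y : List Bool} {r : ℕ} (h : Cl x y r) : ∃ k ≤ 2 * r, Edits k x y := by
  obtain ⟨z, a1, a2, a3, a4⟩ := h
  obtain ⟨k, h1, h2⟩ := edits_of_sub a1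
  obtain ⟨k', h3, h4⟩ := edits_of_sub a2
  exact ⟨k' + k, by omega, h2.trans h4.symm⟩

theorem ED_le {x y : List Bool} {r : ℕ} (h : Cl x y r) : ED x y ≤ 2 * r := by
  obtain ⟨k, h1, h2⟩ := edits_of_cl h
  exact (Nat.sInf_le (s := {k | Edits k x y}) h2).trans h1

theorem edits_ED (x y : List Bool) : Edits (ED x y) x y := by
  obtain ⟨k, -, h⟩ := edits_of_cl (Cl.of_len (x := x) (y := y) (le_max_left _ _) (le_max_right _ _))
  exact Nat.sInf_mem (s := {k | Edits k x y}) ⟨k, h⟩

theorem ED_pos {x y : List Bool} (h : x ≠ y) : 0 < ED x y := by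
  by_contra h0
  have h1 := edits_ED x y
  rw [show ED x y = 0 by omega] at h1
  cases h1
  exact h rfl

/-- The windows of length `L` that start with two ones. -/
def Dec (L : ℕ) : List Bool → List (List Bool)
  | [] => []
  | c :: s => if (c :: s).take 2 = [true, true] then (c :: s).take L :: Dec L s else Dec L s

theorem Cl.dec_cons {L r : ℕ} {s : List Bool} {y : List (List Bool)} (h : Cl (Dec L s) y r)
    (c : Bool) : ∃ z, z <+ Dec L (c :: s) ∧ z <+ y ∧ (Dec L (c :: s)).length ≤ z.length + (r + 1) ∧
      y.length ≤ z.length + r := by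
  obtain ⟨z, a1, a2, a3, a4⟩ := h
  rw [Dec]
  split_ifs
  · exact ⟨z, a1.cons _, a2, by simp only [length_cons]; omega, a4⟩
  · exact ⟨z, a1, a2, by omega, a4⟩

theorem Cl.dec_cons2 {L r : ℕ} {s s' : List Bool} (h : Cl (Dec L s) (Dec L s') r)
    (c c' : Bool) : Cl (Dec L (c :: s)) (Dec L (c' :: s')) (r + 1) := by
  obtain ⟨z, a1, a2, a3, a4⟩ := h
  rw [Dec, Dec]
  split_ifs
  · exact ⟨z, a1.cons _, a2.cons _, by simp only [length_cons]; omega,
      by simp only [length_cons]; omega⟩
  · exact ⟨z, a1.cons _, a2, by simp only [length_cons]; omega, by omega⟩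
  · exact ⟨z, a1, a2.cons _, by omega, by simp only [length_cons]; omega⟩
  · exact ⟨z, a1, a2, by omega, by omega⟩

theorem Cl.dec_append {L r : ℕ} (hL : 2 ≤ L) {s s' : List Bool} (h : Cl (Dec L s) (Dec L s') r)
    (u : List Bool) : Cl (Dec L (u ++ s)) (Dec L (u ++ s')) (r + min u.length L) := by
  induction u with
  | nil => simpa using h
  | cons c u ih =>
    by_cases hu : L ≤ u.length
    · have e1 : ∀ w, (c :: (u ++ w)).take 2 = (c :: u).take 2 := fun w => by
        rw [← cons_append, take_append_of_le_length (by simp only [length_cons]; omega)]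
      have e2 : ∀ w, (c :: (u ++ w)).take L = (c :: u).take L := fun w => by
        rw [← cons_append, take_append_of_le_length (by simp only [length_cons]; omega)]
      rw [cons_append, cons_append, Dec, Dec, e1, e1, e2, e2]
      split_ifs
      · have := (Cl.refl [(c :: u).take L] 0).append ih
        exact this.mono (by simp only [length_cons]; omega)
      · exact ih.mono (by simp only [length_cons]; omega)
    · exact (ih.dec_cons2 c c).mono (by simp only [length_cons]; omega)

theorem Edit.dec {L : ℕ} (hL : 2 ≤ L) {x y : List Bool} (h : Edit x y) :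
    Cl (Dec L x) (Dec L y) (L + 1) := by
  have k : ∀ (v : List Bool) (a : Bool), Cl (Dec L (a :: v)) (Dec L v) 1 := by
    intro v a
    obtain ⟨z, a1, a2, a3, a4⟩ := (Cl.refl (Dec L v) 0).dec_cons a
    exact ⟨z, a1, a2, a3, by omega⟩
  cases h with
  | ins u v a => exact ((k v a).symm.dec_append hL u).mono (by omega)
  | del u v a => exact ((k v a).dec_append hL u).mono (by omega)
  | sub u v a b => exact (((Cl.refl (Dec L v) 0).dec_cons2 a b).dec_append hL u).mono (by omega)

theorem Edits.dec {L : ℕ} (hL : 2 ≤ L) {k : ℕ} {x y : List Bool} (h : Edits k x y) :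
    Cl (Dec L x) (Dec L y) (k * (L + 1)) := by
  induction h with
  | refl x => exact Cl.refl _ _
  | step h _ ih => exact ((h.dec hL).trans ih).mono (le_of_eq (by ring))

/-- Interleaving with zeros. -/
def spread : List Bool → List Bool
  | [] => [false]
  | b :: σ => false :: b :: spread σ

/-- The binary code word of a letter. -/
def code (σ : List Bool) : List Bool := true :: true :: spread σ

theorem spread_length (σ : List Bool) : (spread σ).length = 2 * σ.length + 1 := by
  induction σ with
  | nil => rfl
  | cons b σ ih => simp only [spread, length_cons, ih]; omega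

theorem code_length (σ : List Bool) : (code σ).length = 2 * σ.length + 3 := by
  simp only [code, length_cons, spread_length]

theorem spread_inj : Function.Injective spread := by
  intro σ
  induction σ with
  | nil =>
    intro σ' h
    cases σ' with
    | nil => rfl
    | cons b σ' => simp [spread] at h
  | cons b σ ih =>
    intro σ' h
    cases σ' with
    | nil => simp [spread] at h
    | cons b' σ' =>
      simp only [spread, cons.injEq, true_and] at h
      rw [h.1, ih h.2]

theorem code_inj : Function.Injective code := fun _ _ h => spread_inj (by simpa [code] using h)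

theorem dec_spread (L : ℕ) (σ s : List Bool) :
    ∀ b, Dec L (b :: (spread σ ++ s)) = Dec L s := by
  induction σ with
  | nil =>
    intro b
    cases s <;> simp [spread, Dec]
  | cons c σ ih =>
    intro b
    rw [spread, cons_append, cons_append, Dec, if_neg (by simp), Dec, if_neg (by simp), ih]

theorem dec_code {L : ℕ} (σ s : List Bool) (h : L = 2 * σ.length + 3) :
    Dec L (code σ ++ s) = code σ :: Dec L s := by
  have e : (true :: (true :: spread σ ++ s)).take L = code σ := by
    rw [← cons_append, h, ← code_length]
    exact take_left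
  rw [code, cons_append, Dec, if_pos (by simp), e, cons_append, dec_spread, code]

theorem dec_pad (L p : ℕ) : Dec L (replicate p false) = [] := by
  induction p with
  | zero => rfl
  | succ p ih => rw [replicate_succ, Dec, if_neg (by simp), ih]

/-- The binary word of a word over the large alphabet. -/
def enc (p : ℕ) : List (List Bool) → List Bool
  | [] => replicate p false
  | σ :: x => code σ ++ enc p x

theorem dec_enc {l : ℕ} (p : ℕ) (x : List (List Bool)) (h : ∀ σ ∈ x, σ.length = l) :
    Dec (2 * l + 3) (enc p x) = x.map code := by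
  induction x with
  | nil => exact dec_pad _ _
  | cons σ x ih =>
    rw [enc, dec_code _ _ (by rw [h σ mem_cons_self]), ih fun τ hτ => h τ (mem_cons_of_mem _ hτ),
      map_cons]

theorem enc_length {l : ℕ} (p : ℕ) (x : List (List Bool)) (h : ∀ σ ∈ x, σ.length = l) :
    (enc p x).length = x.length * (2 * l + 3) + p := by
  induction x with
  | nil => simp [enc]
  | cons σ x ih =>
    rw [enc, length_append, code_length, h σ mem_cons_self,
      ih fun τ hτ => h τ (mem_cons_of_mem _ hτ), length_cons]
    ring

theorem enc_sub (p : ℕ) {z x : List (List Bool)} (h : z <+ x) : enc p z <+ enc p x := by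
  induction h with
  | slnil => exact Sublist.refl _
  | cons a _ ih => exact ih.trans (sublist_append_right _ _)
  | cons_cons a _ ih => exact (Sublist.refl _).append ih

theorem ED_enc_le {l r : ℕ} (p : ℕ) {x y : List (List Bool)} (hx : ∀ σ ∈ x, σ.length = l)
    (hy : ∀ σ ∈ y, σ.length = l) (h : Cl x y r) :
    ED (enc p x) (enc p y) ≤ 2 * (r * (2 * l + 3)) := by
  obtain ⟨z, a1, a2, a3, a4⟩ := h
  have hz : ∀ σ ∈ z, σ.length = l := fun σ hσ => hx σ (a1.subset hσ)
  refine ED_le ⟨enc p z, enc_sub p a1, enc_sub p a2, ?_, ?_⟩
  · rw [enc_length p x hx, enc_length p z hz]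
    have := Nat.mul_le_mul_right (2 * l + 3) a3
    rw [add_mul] at this
    omega
  · rw [enc_length p y hy, enc_length p z hz]
    have := Nat.mul_le_mul_right (2 * l + 3) a4
    rw [add_mul] at this
    omega

theorem le_ED_enc {l g : ℕ} (p : ℕ) {x y : List (List Bool)} (hx : ∀ σ ∈ x, σ.length = l)
    (hy : ∀ σ ∈ y, σ.length = l) (h : ∀ z, z <+ x → z <+ y → z.length + g ≤ x.length) :
    g ≤ ED (enc p x) (enc p y) * (2 * l + 4) := by
  have := (edits_ED (enc p x) (enc p y)).dec (L := 2 * l + 3) (by omega)
  rw [dec_enc p x hx, dec_enc p y hy] at this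
  obtain ⟨z, a1, a2, a3, -⟩ := this
  obtain ⟨z', b1, b2, b3⟩ := sub_map_inj code_inj a1 a2
  have := h z' b1 b2
  rw [length_map] at a3
  have e : 2 * l + 3 + 1 = 2 * l + 4 := rfl
  rw [e] at a3
  omega

end Vale.Agent.P238
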