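import Vale.Agent.P138.Basic

open Finset

namespace Vale.Agent.P238

variable {G : Type} [AddCommGroup G] [Fintype G]

theorem parseval (h : G → ℂ) :
    ∑ ψ : AddChar G ℂ, ‖∑ x, h x * ψ x‖ ^ 2 = (Fintype.card G : ℝ) * ∑ x, ‖h x‖ ^ 2 := by
  classical
  have key : ∀ ψ : AddChar G ℂ, ((‖∑ x, h x * ψ x‖ ^ 2 : ℝ) : ℂ) =
      ∑ x, ∑ y, h x * (starRingEnd ℂ) (h y) * ψ (x - y) := by
    intro ψ
    rw [← Complex.normSq_eq_norm_sq, ← Complex.mul_conj, map_sum, sum_mul_sum]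
    refine sum_congr rfl fun x _ => sum_congr rfl fun y _ => ?_
    rw [map_mul, sub_eq_add_neg, AddChar.map_add_eq_mul, AddChar.map_neg_eq_conj]
    ring
  apply Complex.ofReal_injective
  rw [Complex.ofReal_sum]
  simp only [key]
  rw [sum_comm]
  push_cast
  rw [mul_sum]
  refine sum_congr rfl fun x _ => ?_
  rw [sum_comm]
  simp only [← mul_sum, AddChar.sum_apply_eq_ite, sub_eq_zero]
  rw [sum_eq_single x (fun y _ hy => by simp [Ne.symm hy]) (by simp)]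
  simp only [if_true]
  rw [Complex.mul_conj, Complex.normSq_eq_norm_sq]
  push_cast
  ring

theorem shift_parseval (g : G → ℂ) (z : G) :
    (Fintype.card G : ℝ) * ∑ x, ‖g (x + z) - g x‖ ^ 2 =
      ∑ ψ : AddChar G ℂ, ‖∑ x, g x * ψ x‖ ^ 2 * ‖1 - ψ z‖ ^ 2 := by
  rw [← parseval]
  refine sum_congr rfl fun ψ _ => ?_
  have h1 : (∑ x, (g (x + z) - g x) * ψ x) * ψ z = (∑ x, g x * ψ x) * (1 - ψ z) := by
    have e : ∑ x, g (x + z) * ψ (x + z) = ∑ x, g x * ψ x :=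
      Fintype.sum_equiv (Equiv.addRight z) _ _ fun _ => rfl
    rw [mul_sub, mul_one, sum_mul, sum_mul]
    nth_rewrite 1 [← e]
    rw [← sum_sub_distrib]
    refine sum_congr rfl fun x _ => ?_
    rw [AddChar.map_add_eq_mul]
    ring
  have h2 := congrArg (fun w => ‖w‖ ^ 2) h1
  simp only [norm_mul, AddChar.norm_apply, mul_one, mul_pow] at h2
  exact h2

theorem poincare_sq {Mv : Type} [Fintype Mv] (c : Mv → G) (lam : Mv → ℝ) (z : G)
    (h : ∀ ψ : AddChar G ℂ, ‖1 - ψ z‖ ^ 2 ≤ ∑ μ, lam μ * ‖1 - ψ (c μ)‖ ^ 2) (g : G → ℂ) :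
    ∑ x, ‖g (x + z) - g x‖ ^ 2 ≤ ∑ μ, lam μ * ∑ x, ‖g (x + c μ) - g x‖ ^ 2 := by
  have hc : (0 : ℝ) < Fintype.card G := by exact_mod_cast Fintype.card_pos
  refine le_of_mul_le_mul_left ?_ hc
  have e : (Fintype.card G : ℝ) * ∑ μ, lam μ * ∑ x, ‖g (x + c μ) - g x‖ ^ 2 =
      ∑ ψ : AddChar G ℂ, ‖∑ x, g x * ψ x‖ ^ 2 * ∑ μ, lam μ * ‖1 - ψ (c μ)‖ ^ 2 := by
    rw [mul_sum]
    simp only [mul_left_comm (Fintype.card G : ℝ), shift_parseval]
    simp only [mul_sum]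
    rw [sum_comm]
    exact sum_congr rfl fun ψ _ => sum_congr rfl fun μ _ => by ring
  rw [e, shift_parseval]
  exact sum_le_sum fun ψ _ => mul_le_mul_of_nonneg_left (h ψ) (sq_nonneg _)

theorem poincare_abs {Mv : Type} [Fintype Mv] (c : Mv → G) (lam : Mv → ℝ) (z : G)
    (h : ∀ ψ : AddChar G ℂ, ‖1 - ψ z‖ ^ 2 ≤ ∑ μ, lam μ * ‖1 - ψ (c μ)‖ ^ 2) (g : G → ℝ) :
    ∑ x, |g (x + z) - g x| ≤ ∑ μ, lam μ * ∑ x, |g (x + c μ) - g x| := by
  classical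
  obtain ⟨l, l0, -, -, -, hl⟩ := Vale.Agent.P138.cut g
  have key : ∀ (S : Finset G) (x y : G), |(if x ∈ S then (1:ℝ) else 0) - (if y ∈ S then 1 else 0)| =
      ‖(if x ∈ S then (1:ℂ) else 0) - (if y ∈ S then 1 else 0)‖ ^ 2 := by
    intro S x y
    split_ifs <;> simp
  simp only [hl, key]
  rw [sum_comm]
  have e : ∑ μ, lam μ * ∑ x, ∑ S : Finset G, l S *
      ‖(if x + c μ ∈ S then (1:ℂ) else 0) - (if x ∈ S then 1 else 0)‖ ^ 2 =
      ∑ S : Finset G, l S * ∑ μ, lam μ * ∑ x,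
        ‖(if x + c μ ∈ S then (1:ℂ) else 0) - (if x ∈ S then 1 else 0)‖ ^ 2 := by
    simp only [mul_sum]
    rw [sum_comm (s := (univ : Finset (Finset G)))]
    refine sum_congr rfl fun μ _ => ?_
    rw [sum_comm]
    exact sum_congr rfl fun S _ => sum_congr rfl fun x _ => by ring
  rw [e]
  refine sum_le_sum fun S _ => ?_
  rw [← mul_sum]
  exact mul_le_mul_of_nonneg_left
    (poincare_sq c lam z h fun x => if x ∈ S then 1 else 0) (l0 S)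

theorem poincare_l1 {Mv : Type} [Fintype Mv] (c : Mv → G) (lam : Mv → ℝ) (z : G)
    (h : ∀ ψ : AddChar G ℂ, ‖1 - ψ z‖ ^ 2 ≤ ∑ μ, lam μ * ‖1 - ψ (c μ)‖ ^ 2)
    (f : G → lp (fun _ : ℕ => ℝ) 1) :
    ∑ x, ‖f (x + z) - f x‖ ≤ ∑ μ, lam μ * ∑ x, ‖f (x + c μ) - f x‖ := by
  have hs : ∀ x y, HasSum (fun j => |f x j - f y j|) ‖f x - f y‖ := by
    intro x y
    have := lp.hasSum_norm (p := 1) (by simp) (f x - f y)
    simpa using this
  refine hasSum_le (fun j => poincare_abs c lam z h fun x => f x j)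
    (hasSum_sum fun x _ => hs _ _) ?_
  exact hasSum_sum fun μ _ => (hasSum_sum fun x _ => hs _ _).mul_left _

end Vale.Agent.P238
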