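import Vale.Agent.P238.Step

open Finset

namespace Vale.Agent.P238

variable {d : ℕ} [NeZero d] {q : Fin (d + 1) → ℕ} [hq : ∀ a, NeZero (q a)]
  {qb M : ℕ} {G Mv : Type} [AddCommGroup G] [Fintype G] [Fintype Mv] {len g l : ℕ} {W C : ℝ}

theorem char_sum_one {A ι : Type} [AddCommGroup A] (Ψ : AddChar A ℂ) (f : ι → A) (s : Finset ι)
    (h : ∀ i ∈ s, Ψ (f i) = 1) : Ψ (∑ i ∈ s, f i) = 1 := by
  classical
  induction s using Finset.induction_on with
  | empty => simp
  | insert i s hi ih =>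
    rw [sum_insert hi, AddChar.map_add_eq_mul, h i (mem_insert_self _ _),
      ih fun j hj => h j (mem_insert_of_mem hj), one_mul]

/-- The moves of the next level. -/
def mvs (s : Sys q qb M G Mv len g l W C) (M' : ℕ) (a : Fin (d + 1)) :
    (Fin d × Mv) ⊕ Fin M' ⊕ ZB q → ZB q × (Fin d → G)
  | .inl p => (0, Pi.single p.1 (s.c (a.succAbove p.1) p.2))
  | .inr (.inl δ) => (((δ : ℕ) : ZB q), 0)
  | .inr (.inr u) => cmv s a u

/-- The weights of the moves of the next level. -/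
noncomputable def wts (s : Sys q qb M G Mv len g l W C) (M' : ℕ) (W' : ℝ) (a : Fin (d + 1)) :
    (Fin d × Mv) ⊕ Fin M' ⊕ ZB q → ℝ
  | .inl p => s.lam (a.succAbove p.1) p.2
  | .inr (.inl _) => W' / M'
  | .inr (.inr _) => W' / (2 * (∏ a, q a : ℕ))

/-- The costs of the moves of the next level. -/
def csts (s : Sys q qb M G Mv len g l W C) (M' : ℕ) (a : Fin (d + 1)) :
    (Fin d × Mv) ⊕ Fin M' ⊕ ZB q → ℕ
  | .inl p => M * s.cost (a.succAbove p.1) p.2
  | .inr (.inl δ) => δ * (d * len)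
  | .inr (.inr _) => M * (d * s.r)

omit [NeZero d] in
theorem step_poinc (s : Sys q qb M G Mv len g l W C) {w M' : ℕ} (hqb : ∀ a, q a ≤ qb)
    (hM' : 2 * qb ^ w ≤ M') (hW : 0 ≤ W) (a : Fin (d + 1)) (Ψ : AddChar (ZB q × (Fin d → G)) ℂ)
    (hΨ : ∃ y, Ψ (y, 0) ≠ 1) :
    w * W ≤ ∑ μ, wts s M' (w * W) a μ * ‖1 - Ψ (mvs s M' a μ)‖ ^ 2 := by
  classical
  have hW' : 0 ≤ w * W := by positivity
  have hqb0 : 0 < qb := (Nat.pos_of_ne_zero (NeZero.ne (q a))).trans_le (hqb a)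
  have hM'0 : 0 < M' := lt_of_lt_of_le (by positivity) hM'
  rw [Fintype.sum_sum_type, Fintype.sum_sum_type, Fintype.sum_prod_type]
  simp only [wts, mvs]
  have n1 : ∀ i : Fin d, 0 ≤ ∑ μ, s.lam (a.succAbove i) μ *
      ‖1 - Ψ (0, Pi.single i (s.c (a.succAbove i) μ))‖ ^ 2 :=
    fun i => sum_nonneg fun μ _ => mul_nonneg (s.lam0 _ _) (sq_nonneg _)
  have n1' := sum_nonneg fun i (_ : i ∈ univ) => n1 i
  have n2 : 0 ≤ ∑ δ : Fin M', w * W / M' * ‖1 - Ψ (((δ : ℕ) : ZB q), 0)‖ ^ 2 := by positivity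
  have n3 : 0 ≤ ∑ u : ZB q, w * W / (2 * (∏ a, q a : ℕ)) * ‖1 - Ψ (cmv s a u)‖ ^ 2 := by
    positivity
  set I := univ.filter fun i : Fin d => ∃ y, Ψ (0, Pi.single i (s.e y)) ≠ 1 with hI
  by_cases hw : w ≤ I.card
  · have k1 : ∀ i ∈ I, W ≤ ∑ μ, s.lam (a.succAbove i) μ *
        ‖1 - Ψ (0, Pi.single i (s.c (a.succAbove i) μ))‖ ^ 2 := fun i hi =>
      s.poinc (a.succAbove i) (Ψ.compAddMonoidHom ((AddMonoidHom.inr (ZB q) (Fin d → G)).comp
        (AddMonoidHom.single (fun _ => G) i))) (mem_filter.1 hi).2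
    have k2 := card_nsmul_le_sum _ _ _ k1
    have k3 := sum_le_sum_of_subset_of_nonneg (subset_univ I) fun i _ _ => n1 i
    have k4 : (w : ℝ) * W ≤ I.card * W := mul_le_mul_of_nonneg_right (by exact_mod_cast hw) hW
    rw [nsmul_eq_mul] at k2
    linarith
  set ω := Ψ (1, 0) with hω
  have hpow : ∀ n : ℕ, Ψ ((n : ZB q), 0) = ω ^ n := by
    intro n
    rw [hω, ← AddChar.map_nsmul_eq_pow]
    simp
  have hω1 : ω ≠ 1 := by
    intro h
    obtain ⟨y, hy⟩ := hΨ
    apply hy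
    rw [← ZMod.natCast_zmod_val y, hpow, h, one_pow]
  set Q := ∏ i ∈ I, q (a.succAbove i) with hQ
  have hQ0 : 0 < Q := prod_pos fun i _ => Nat.pos_of_ne_zero (NeZero.ne _)
  have hQle : Q ≤ qb ^ w :=
    (prod_le_pow_card _ _ _ fun i _ => hqb _).trans (Nat.pow_le_pow_right hqb0 (not_le.1 hw).le)
  by_cases hωQ : ω ^ Q = 1
  · have k1 := geom_re_le (AddChar.norm_apply Ψ _) hω1 hQ0 hωQ M'
    have k2 := sum_norm_sq (fun δ : Fin M' => ω ^ (δ : ℕ))
      fun δ => by rw [norm_pow, hω, AddChar.norm_apply, one_pow]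
    have k3 : (2 : ℝ) * Q ≤ M' := by exact_mod_cast (by omega : 2 * Q ≤ M')
    have k4 : (0 : ℝ) < M' := by exact_mod_cast hM'0
    rw [Fintype.card_fin] at k2
    have k5 : w * W ≤ ∑ δ : Fin M', w * W / M' * ‖1 - Ψ (((δ : ℕ) : ZB q), 0)‖ ^ 2 := by
      simp only [hpow]
      rw [← mul_sum, k2, div_mul_eq_mul_div, le_div_iff₀ k4]
      exact mul_le_mul_of_nonneg_left (by linarith) hW'
    linarith
  · have hstep : ∀ u : ZB q, Ψ (cmv s a (u + Q)) = ω ^ Q * Ψ (cmv s a u) := by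
      intro u
      have e : cmv s a (u + Q) = ((Q : ZB q), 0) + cmv s a u + ∑ i : Fin d, (0, Pi.single i
          (s.e (res q (a.succAbove i) u • s.h (a.succAbove i) -
            res q (a.succAbove i) (u + Q) • s.h (a.succAbove i)))) := by
        refine Prod.ext ?_ ?_
        · rw [Prod.fst_add, Prod.fst_add, Prod.fst_sum]
          simp only [cmv, sum_const_zero, add_zero]
          exact add_comm _ _
        · rw [Prod.snd_add, Prod.snd_add, Prod.snd_sum]
          simp only [cmv, zero_add]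
          rw [univ_sum_single]
          funext j
          rw [Pi.add_apply, map_sub]
          abel
      rw [e, AddChar.map_add_eq_mul, AddChar.map_add_eq_mul, hpow, char_sum_one, mul_one]
      intro i _
      by_cases hi : i ∈ I
      · rw [res_add_of_dvd q _ _ (dvd_prod_of_mem (fun i => q (a.succAbove i)) hi), sub_self,
          map_zero, Pi.single_zero]
        exact AddChar.map_zero_eq_one Ψ
      · by_contra h
        exact hi (mem_filter.2 ⟨mem_univ _, _, h⟩)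
    have hsum : ∑ u : ZB q, Ψ (cmv s a u) = 0 := by
      have e : ∑ u : ZB q, Ψ (cmv s a (u + Q)) = ∑ u : ZB q, Ψ (cmv s a u) :=
        Fintype.sum_equiv (Equiv.addRight (Q : ZB q)) _ _ fun _ => rfl
      simp only [hstep] at e
      rw [← mul_sum] at e
      by_contra h
      exact hωQ ((mul_eq_right₀ h).1 e)
    have k2 := sum_norm_sq (fun u => Ψ (cmv s a u)) fun u => AddChar.norm_apply Ψ _
    have hB : ((∏ a, q a : ℕ) : ℝ) ≠ 0 := by exact_mod_cast NeZero.ne _
    rw [hsum, ZMod.card] at k2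
    have k5 : ∑ u : ZB q, w * W / (2 * (∏ a, q a : ℕ)) * ‖1 - Ψ (cmv s a u)‖ ^ 2 = w * W := by
      rw [← mul_sum, k2]
      simp only [Complex.zero_re, mul_zero, sub_zero]
      field_simp
    linarith

omit [NeZero d] [Fintype G] in
theorem step_cost (s : Sys q qb M G Mv len g l W C) {M' : ℕ} {W' C' : ℝ} (hW' : 0 ≤ W')
    (hM'0 : 0 < M') (hC : C * M + W' * (M' + qb) ≤ C' * M) (a : Fin (d + 1)) :
    ∑ μ, wts s M' W' a μ * csts s M' a μ ≤ C' * (M * (d * len) : ℕ) := by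
  rw [Fintype.sum_sum_type, Fintype.sum_sum_type, Fintype.sum_prod_type]
  simp only [wts, csts]
  have k4 : (0 : ℝ) < M' := by exact_mod_cast hM'0
  have hB : ((∏ a, q a : ℕ) : ℝ) ≠ 0 := by exact_mod_cast NeZero.ne _
  have k1 : ∑ i : Fin d, ∑ μ, s.lam (a.succAbove i) μ * (M * s.cost (a.succAbove i) μ : ℕ) ≤
      d * (M * (C * len)) := by
    have : ∀ i ∈ (univ : Finset (Fin d)), ∑ μ, s.lam (a.succAbove i) μ *
        (M * s.cost (a.succAbove i) μ : ℕ) ≤ M * (C * len) := by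
      intro i _
      have := mul_le_mul_of_nonneg_left (s.hcost (a.succAbove i)) (Nat.cast_nonneg M)
      rw [mul_sum] at this
      refine le_trans (le_of_eq (sum_congr rfl fun μ _ => ?_)) this
      push_cast
      ring
    simpa using sum_le_card_nsmul _ _ _ this
  have k2 : ∑ δ : Fin M', W' / M' * ((δ : ℕ) * (d * len) : ℕ) ≤ W' * M' * (d * len) := by
    have : ∀ δ ∈ (univ : Finset (Fin M')), W' / M' * ((δ : ℕ) * (d * len) : ℕ) ≤
        W' * (d * len) := by
      intro δ _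
      have h : ((δ : ℕ) : ℝ) ≤ M' := by exact_mod_cast δ.2.le
      push_cast
      rw [div_mul_eq_mul_div, div_le_iff₀ k4, mul_assoc]
      refine mul_le_mul_of_nonneg_left ?_ hW'
      rw [mul_comm]
      exact mul_le_mul_of_nonneg_left h (by positivity)
    have := sum_le_card_nsmul _ _ _ this
    rw [card_univ, Fintype.card_fin, nsmul_eq_mul] at this
    linarith
  have k3 : ∑ _u : ZB q, W' / (2 * (∏ a, q a : ℕ)) * (M * (d * s.r) : ℕ) ≤
      W' * qb * (d * len) := by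
    have h : (s.r : ℝ) * M ≤ qb * len := by exact_mod_cast s.hr
    rw [sum_const, card_univ, ZMod.card, nsmul_eq_mul]
    have e : ((∏ a, q a : ℕ) : ℝ) * (W' / (2 * (∏ a, q a : ℕ)) * (M * (d * s.r) : ℕ)) =
        W' * d / 2 * (s.r * M) := by
      rw [Nat.cast_mul, Nat.cast_mul]
      field_simp
    rw [e]
    have h2 := mul_le_mul_of_nonneg_left h (by positivity : 0 ≤ W' * d / 2)
    have h3 : 0 ≤ W' * qb * (d * len) := by positivity
    linarith
  have k5 := mul_le_mul_of_nonneg_right hC (by positivity : (0 : ℝ) ≤ d * len)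
  push_cast at k1 k2 k3 ⊢
  linarith

/-- The next level of the construction. -/
noncomputable def step (s : Sys q qb M G Mv len g l W C) {F E d2 w M' : ℕ} {C' : ℝ}
    (hcop : Pairwise (Function.onFun Nat.Coprime q))
    (hF : ∀ a, F ≤ q a) (hF1 : 1 < F) (hqb : ∀ a, q a ≤ qb) (hM : qb ≤ M)
    (hE : 2 * qb * M < F ^ (E + 1)) (hd : d = 2 * d2) (hEd : 2 * E ≤ d2) (hg : g ≤ len)
    (hM' : 2 * qb ^ w ≤ M') (hW : 0 ≤ W) (hC : C * M + w * W * (M' + qb) ≤ C' * M) :
    Sys q qb M (ZB q × (Fin d → G)) ((Fin d × Mv) ⊕ Fin M' ⊕ ZB q) (M * (d * len)) (M * (d2 * g))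
      (d + l) (w * W) C' where
  e := AddMonoidHom.inl _ _
  S a x := cat2 M (blk s a x)
  h a := ((bb q a / q a : ℕ) : ZB q)
  r := qb * (d * len)
  c := mvs s M'
  lam := wts s M' (w * W)
  cost := csts s M'
  hlen a x := cat2_length (blk_length s a x)
  hsym a x σ hσ := by
    obtain ⟨τ, i, h⟩ := mem_cat2 hσ
    obtain ⟨σ', h1, rfl⟩ := List.mem_map.1 h
    rw [tag_length, s.hsym _ _ _ h1]
  far a x m m' hm hm' hne z h1 h2 :=
    step_far s hcop hF hF1 hqb hM hE hd hEd hg a x hm hm' hne z h1 h2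
  wrap a x := step_wrap s hqb a x
  hr := le_of_eq (by ring)
  lam0 a μ := by
    rcases μ with p | δ | u
    · exact s.lam0 _ _
    · simp only [wts]; positivity
    · simp only [wts]; positivity
  move a μ x := by
    rcases μ with p | δ | u
    · exact step_child s a x p.1 p.2
    · exact step_shift s a x δ
    · exact step_cmv s a x u
  hcost a := step_cost s (by positivity) (lt_of_lt_of_le (by
    have := hF a; have := hqb a; have : 0 < qb := by omega
    positivity) hM') hC a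
  poinc a Ψ hΨ := step_poinc s hqb hM' hW a Ψ hΨ

theorem exists_sys {F E d2 w M' : ℕ}
    (hcop : Pairwise (Function.onFun Nat.Coprime q))
    (hF : ∀ a, F ≤ q a) (hF1 : 1 < F) (hqb : ∀ a, q a ≤ qb) (hM : qb ≤ M)
    (hE : 2 * qb * M < F ^ (E + 1)) (hd : d = 2 * d2) (hEd : 2 * E ≤ d2)
    (hM' : 2 * qb ^ w ≤ M') (hw : 1 ≤ w) (k : ℕ) :
    ∃ (G : Type) (_ : AddCommGroup G) (_ : Fintype G) (Mv : Type) (_ : Fintype Mv),
      Nonempty (Sys q qb M G Mv ((M * d) ^ k) ((M * d2) ^ k) (qb + k * d) (w ^ k)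
        (1 / 2 + k * w ^ k * (M' + qb) / M)) := by
  have hM0 : (0 : ℝ) < M := by
    have := hF 0; have := hqb 0
    exact_mod_cast (by omega : 0 < M)
  induction k with
  | zero => exact ⟨ZB q, inferInstance, inferInstance, ZB q, inferInstance,
      ⟨by simpa using base q qb M hqb⟩⟩
  | succ k ih =>
    obtain ⟨G, i1, i2, Mv, i3, ⟨s⟩⟩ := ih
    have hw' : (1 : ℝ) ≤ w := by exact_mod_cast hw
    have t := step s (C' := 1 / 2 + (k + 1 : ℕ) * w ^ (k + 1) * (M' + qb) / M) hcop hF hF1 hqb hM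
      hE hd hEd (Nat.pow_le_pow_left (Nat.mul_le_mul_left _ (by omega)) _) hM' (by positivity) ?_
    · refine ⟨ZB q × (Fin d → G), inferInstance, inferInstance, (Fin d × Mv) ⊕ Fin M' ⊕ ZB q,
        inferInstance, ⟨?_⟩⟩
      rw [show (M * d) ^ (k + 1) = M * (d * (M * d) ^ k) by ring,
        show (M * d2) ^ (k + 1) = M * (d2 * (M * d2) ^ k) by ring,
        show qb + (k + 1) * d = d + (qb + k * d) by ring, pow_succ' (w : ℝ) k]
      rwa [pow_succ' (w : ℝ) k] at t
    · rw [add_mul, add_mul, div_mul_cancel₀ _ hM0.ne', div_mul_cancel₀ _ hM0.ne']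
      have h1 : (w : ℝ) ^ k ≤ w ^ (k + 1) := pow_le_pow_right₀ hw' (by omega)
      have h2 : (k : ℝ) * w ^ k * (M' + qb) ≤ k * w ^ (k + 1) * (M' + qb) := by gcongr
      push_cast
      rw [← pow_succ']
      linarith

end Vale.Agent.P238
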