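import Vale.Agent.P238.Enc
import Vale.Agent.P238.Iter
import Vale.Agent.P238.Fourier

open Finset

namespace Vale.Agent.P238

theorem exists_ofFn {n : ℕ} (x : List Bool) (h : x.length = n) :
    ∃ v : Fin n → Bool, List.ofFn v = x := by
  subst h
  exact ⟨x.get, List.ofFn_get x⟩

theorem dist_facts {n : ℕ} (f : (Fin n → Bool) → lp (fun _ : ℕ => ℝ) 1)
    (hf : Function.Injective f) : ∃ L1 L2 : ℝ, 0 ≤ L1 ∧ 0 ≤ L2 ∧ distortion f = L1 * L2 ∧
      (∀ x y, ‖f x - f y‖ ≤ L1 * edCube x y) ∧ ∀ x y, x ≠ y → edCube x y ≤ L2 * ‖f x - f y‖ := by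
  have h0 : ∀ x y : Fin n → Bool, 0 ≤ edCube x y := fun x y => Nat.cast_nonneg _
  have p1 : 0 ≤ ⨆ p : {p : (Fin n → Bool) × (Fin n → Bool) // p.1 ≠ p.2},
      ‖f p.1.1 - f p.1.2‖ / edCube p.1.1 p.1.2 :=
    Real.iSup_nonneg fun p => div_nonneg (norm_nonneg _) (h0 _ _)
  refine ⟨_, _, p1, Real.iSup_nonneg fun p => div_nonneg (h0 _ _) (norm_nonneg _), rfl,
    fun x y => ?_, fun x y hxy => ?_⟩
  · by_cases hxy : x = y
    · rw [hxy, sub_self, norm_zero]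
      exact mul_nonneg p1 (h0 _ _)
    · have h1 : 0 < edCube x y := by
        unfold edCube
        exact_mod_cast ED_pos fun h => hxy (List.ofFn_injective h)
      rw [← div_le_iff₀ h1]
      exact le_ciSup (f := fun p : {p : (Fin n → Bool) × (Fin n → Bool) // p.1 ≠ p.2} =>
        ‖f p.1.1 - f p.1.2‖ / edCube p.1.1 p.1.2) (Set.finite_range _).bddAbove ⟨(x, y), hxy⟩
  · have h1 : 0 < ‖f x - f y‖ := norm_pos_iff.2 (sub_ne_zero.2 (hf.ne hxy))
    rw [← div_le_iff₀ h1]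
    exact le_ciSup (f := fun p : {p : (Fin n → Bool) × (Fin n → Bool) // p.1 ≠ p.2} =>
      edCube p.1.1 p.1.2 / ‖f p.1.1 - f p.1.2‖) (Set.finite_range _).bddAbove ⟨(x, y), hxy⟩

theorem le_c1 {n : ℕ} {D : ℝ}
    (h : ∀ f : (Fin n → Bool) → lp (fun _ : ℕ => ℝ) 1, Function.Injective f → D ≤ distortion f) :
    D ≤ c1 n := by
  refine le_csInf ⟨_, fun x => lp.single 1 0 ((Fintype.equivFin _ x : ℕ) : ℝ), ?_, rfl⟩ ?_
  · intro x y hxy
    have := congrArg (fun u : lp (fun _ : ℕ => ℝ) 1 => u 0) hxy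
    simp only [lp.single_apply, Pi.single_eq_same, Nat.cast_inj] at this
    exact (Fintype.equivFin _).injective (Fin.ext this)
  · rintro _ ⟨f, hf, rfl⟩
    exact h f hf

theorem sys_bound {d : ℕ} {q : Fin (d + 1) → ℕ} {qb M : ℕ} {G Mv : Type} [AddCommGroup G]
    [Fintype G] [Fintype Mv] {len g l : ℕ} {W C : ℝ} (s : Sys q qb M G Mv len g l W C)
    (hq : 1 < q 0) (hg : 0 < g) (hW : 0 < W) {n : ℕ} (hn : len * (2 * l + 3) ≤ n)
    (f : (Fin n → Bool) → lp (fun _ : ℕ => ℝ) 1) (hf : Function.Injective f) :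
    W * g ≤ 8 * (2 * l + 4) ^ 2 * (C * len) * distortion f := by
  obtain ⟨L1, L2, p1, p2, hD, h1, h2⟩ := dist_facts f hf
  obtain ⟨p, rfl⟩ := Nat.exists_eq_add_of_le hn
  choose v hv using fun θ : G => exists_ofFn (n := len * (2 * l + 3) + p) (enc p (s.S 0 θ))
    (by rw [enc_length p _ (s.hsym 0 θ), s.hlen])
  have key := poincare_l1 (s.c 0) (fun μ => 4 / W * s.lam 0 μ) (s.e (s.h 0)) ?_ (fun θ => f (v θ))
  · have k1 : ∀ θ, (g : ℝ) ≤ (2 * l + 4) * L2 * ‖f (v (θ + s.e (s.h 0))) - f (v θ)‖ := by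
      intro θ
      have a1 := le_ED_enc (g := g) p (s.hsym 0 (θ + s.e (s.h 0))) (s.hsym 0 θ) fun z z1 z2 => by
        rw [s.hlen]
        exact s.far 0 θ 1 0 hq (by omega) one_ne_zero z (by simpa using z1) (by simpa using z2)
      rw [← hv, ← hv] at a1
      have a2 : (g : ℝ) ≤ edCube (v (θ + s.e (s.h 0))) (v θ) * (2 * l + 4) := by
        unfold edCube
        exact_mod_cast a1
      have a3 : v (θ + s.e (s.h 0)) ≠ v θ := by
        intro h
        rw [h, Nat.le_zero.1 (ED_le (Cl.refl _ 0))] at a1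
        omega
      have a4 := mul_le_mul_of_nonneg_right (h2 _ _ a3) (by positivity : (0 : ℝ) ≤ 2 * l + 4)
      linarith
    have k2 : ∀ μ θ, ‖f (v (θ + s.c 0 μ)) - f (v θ)‖ ≤ L1 * (2 * (s.cost 0 μ * (2 * l + 4))) := by
      intro μ θ
      refine (h1 _ _).trans (mul_le_mul_of_nonneg_left ?_ p1)
      have a1 := ED_enc_le p (s.hsym 0 (θ + s.c 0 μ)) (s.hsym 0 θ) (s.move 0 μ θ)
      rw [← hv, ← hv] at a1
      have a2 : 2 * (s.cost 0 μ * (2 * l + 3)) ≤ 2 * (s.cost 0 μ * (2 * l + 4)) := by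
        gcongr
        omega
      unfold edCube
      exact_mod_cast a1.trans a2
    have hc : (0 : ℝ) < Fintype.card G := by exact_mod_cast Fintype.card_pos
    have k3 := card_nsmul_le_sum univ _ _ fun θ _ => k1 θ
    rw [← mul_sum, card_univ, nsmul_eq_mul] at k3
    have k4 : ∑ μ, 4 / W * s.lam 0 μ * ∑ θ, ‖f (v (θ + s.c 0 μ)) - f (v θ)‖ ≤
        Fintype.card G * (8 / W * L1 * (2 * l + 4)) * (C * len) := by
      refine le_trans ?_ (mul_le_mul_of_nonneg_left (s.hcost 0) (by positivity))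
      rw [mul_sum]
      refine sum_le_sum fun μ _ => ?_
      have a1 := sum_le_card_nsmul univ _ _ fun θ _ => k2 μ θ
      rw [card_univ, nsmul_eq_mul] at a1
      have := s.lam0 0 μ
      refine (mul_le_mul_of_nonneg_left a1 (by positivity)).trans (le_of_eq ?_)
      ring
    have k5 := k3.trans (mul_le_mul_of_nonneg_left (key.trans k4) (by positivity))
    have k6 : (g : ℝ) ≤ (8 * (2 * l + 4) ^ 2 * (C * len) * (L1 * L2)) / W := by
      refine le_of_mul_le_mul_left (k5.trans (le_of_eq ?_)) hc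
      ring
    rw [le_div_iff₀ hW] at k6
    rw [hD]
    linarith
  · intro ψ
    by_cases hψ : ∃ y, ψ (s.e y) ≠ 1
    · have a1 := s.poinc 0 ψ hψ
      have a2 : ‖1 - ψ (s.e (s.h 0))‖ ≤ 2 := by
        refine (norm_sub_le _ _).trans ?_
        rw [norm_one, AddChar.norm_apply]
        norm_num
      have a3 : ‖1 - ψ (s.e (s.h 0))‖ ^ 2 ≤ 2 ^ 2 := pow_le_pow_left₀ (norm_nonneg _) a2 2
      simp only [mul_assoc]
      rw [← mul_sum]
      have a4 := mul_le_mul_of_nonneg_left a1 (by positivity : 0 ≤ 4 / W)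
      rw [div_mul_cancel₀ _ hW.ne'] at a4
      linarith
    · push Not at hψ
      rw [hψ, sub_self, norm_zero, zero_pow two_ne_zero]
      exact sum_nonneg fun μ _ => by have := s.lam0 0 μ; positivity

/-- The construction with all parameters chosen. -/
theorem param_bound (t : ℕ) (ht : 40 ≤ t) {n : ℕ} (hn : t ^ (8640 * t ^ 4) ≤ n) :
    (t : ℝ) ^ (t ^ 2) ≤ c1 n := by
  obtain ⟨d, hd⟩ : ∃ d, d = 24 * t := ⟨_, rfl⟩
  obtain ⟨k, hk⟩ : ∃ k, k = 24 * t ^ 2 := ⟨_, rfl⟩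
  obtain ⟨F, hF⟩ : ∃ F, F = d.factorial * t ^ d := ⟨_, rfl⟩
  have : NeZero d := ⟨by omega⟩
  have t0 : 0 < t := by omega
  have f1 : t ^ d ≤ F := by
    rw [hF]
    exact Nat.le_mul_of_pos_left _ (Nat.factorial_pos d)
  have f2 : F ≤ t ^ (72 * t) := by
    have a1 : d ≤ t ^ 2 := by rw [hd, sq]; exact Nat.mul_le_mul_right _ (by omega)
    calc F ≤ d ^ d * t ^ d := by rw [hF]; exact Nat.mul_le_mul_right _ (Nat.factorial_le_pow d)
      _ ≤ (t ^ 2) ^ d * t ^ d := Nat.mul_le_mul_right _ (Nat.pow_le_pow_left a1 _)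
      _ = t ^ (72 * t) := by rw [← pow_mul, ← pow_add]; congr 1; omega
  have f3 : 576 * t ^ 3 ≤ F := by
    calc 576 * t ^ 3 ≤ t ^ 2 * t ^ 3 := Nat.mul_le_mul_right _ (by nlinarith)
      _ = t ^ 5 := by ring
      _ ≤ t ^ d := Nat.pow_le_pow_right t0 (by omega)
      _ ≤ F := f1
  have t3 : t ≤ t ^ 3 := Nat.le_self_pow (by norm_num) t
  have t23 : t ^ 2 ≤ t ^ 3 := Nat.pow_le_pow_right t0 (by norm_num)
  have f4 : d + 2 ≤ F := by omega
  have f5 : t ^ k ≤ F ^ t := by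
    calc t ^ k = (t ^ d) ^ t := by rw [← pow_mul, hk, hd]; congr 1; ring
      _ ≤ F ^ t := Nat.pow_le_pow_left f1 _
  have F0 : 0 < F := by omega
  set q : Fin (d + 1) → ℕ := fun i => (i + 1) * F + 1 with hq
  have : ∀ a, NeZero (q a) := fun a => ⟨Nat.succ_ne_zero _⟩
  have hcop : Pairwise (Function.onFun Nat.Coprime q) := by
    have : ∀ i j : Fin (d + 1), i < j → Nat.Coprime (q i) (q j) := by
      intro i j hij
      refine Nat.coprime_mul_succ ?_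
      rw [hF]
      refine Dvd.dvd.mul_right (Nat.dvd_factorial ?_ ?_) _
      · have : (i : ℕ) < j := hij
        omega
      · have := j.2
        omega
    intro i j hij
    rcases lt_or_gt_of_ne hij with h | h
    · exact this i j h
    · exact (this j i h).symm
  have q1 : ∀ a, F ≤ q a := fun a => by
    simp only [hq]
    nlinarith
  have q2 : ∀ a, q a ≤ F ^ 2 := fun a => by
    simp only [hq]
    have := a.2
    nlinarith
  have m1 : F ^ 2 ≤ F ^ (4 * t) := Nat.pow_le_pow_right F0 (by omega)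
  have m2 : 2 * F ^ 2 * F ^ (4 * t) < F ^ (6 * t + 1) := by
    calc 2 * F ^ 2 * F ^ (4 * t) < F * F ^ 2 * F ^ (4 * t) := by
          gcongr
          omega
      _ = F ^ (4 * t + 3) := by ring
      _ ≤ F ^ (6 * t + 1) := Nat.pow_le_pow_right F0 (by omega)
  obtain ⟨G, i1, i2, Mv, i3, ⟨s⟩⟩ := exists_sys (q := q) (d2 := 12 * t) (w := t)
    (M' := 2 * (F ^ 2) ^ t) hcop q1 (by omega) q2 m1 m2 (by omega) (by omega) le_rfl (by omega) k
  have l1 : 2 * (F ^ 2 + k * d) + 4 ≤ F ^ 3 := by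
    have : k * d = 576 * t ^ 3 := by rw [hk, hd]; ring
    have : 40 * F ^ 2 ≤ F ^ 3 := by
      rw [pow_succ' F 2]
      exact Nat.mul_le_mul_right _ (by omega)
    have : F ≤ F ^ 2 := Nat.le_self_pow (by norm_num) F
    omega
  have n1 : (F ^ (4 * t) * d) ^ k * (2 * (F ^ 2 + k * d) + 3) ≤ n := by
    have a1 : 1600 ≤ t ^ 2 := by nlinarith
    calc (F ^ (4 * t) * d) ^ k * (2 * (F ^ 2 + k * d) + 3) ≤ (F ^ (4 * t) * F) ^ k * F ^ 3 := by
          gcongr <;> omega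
      _ = F ^ ((4 * t + 1) * k + 3) := by rw [← pow_succ, ← pow_mul, ← pow_add]
      _ ≤ F ^ (120 * t ^ 3) := by
          refine Nat.pow_le_pow_right F0 ?_
          have : (4 * t + 1) * k = 96 * t ^ 3 + 24 * t ^ 2 := by rw [hk]; ring
          have : 40 * t ^ 2 ≤ t ^ 3 := by
            rw [pow_succ' t 2]
            exact Nat.mul_le_mul_right _ ht
          omega
      _ ≤ (t ^ (72 * t)) ^ (120 * t ^ 3) := Nat.pow_le_pow_left f2 _
      _ = t ^ (8640 * t ^ 4) := by rw [← pow_mul]; congr 1; ring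
      _ ≤ n := hn
  have c1' : (1 / 2 + k * (t : ℝ) ^ k * ((2 * (F ^ 2) ^ t : ℕ) + (F ^ 2 : ℕ)) / (F ^ (4 * t) : ℕ))
      ≤ 1 := by
    have a1 : 2 * (k * t ^ k * (2 * (F ^ 2) ^ t + F ^ 2)) ≤ F ^ (4 * t) := by
      have b1 : F ^ 2 ≤ (F ^ 2) ^ t := Nat.le_self_pow (by omega) _
      have b2 : 6 * k ≤ F ^ t := le_trans (by omega) (Nat.le_self_pow (by omega) F)
      calc 2 * (k * t ^ k * (2 * (F ^ 2) ^ t + F ^ 2)) ≤ 2 * (k * F ^ t * (3 * (F ^ 2) ^ t)) := by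
            gcongr
            omega
        _ = 6 * k * (F ^ t * (F ^ 2) ^ t) := by ring
        _ ≤ F ^ t * (F ^ t * (F ^ 2) ^ t) := Nat.mul_le_mul_right _ b2
        _ = F ^ (4 * t) := by rw [← pow_mul, ← pow_add, ← pow_add]; congr 1; ring
    have a2 : (0 : ℝ) < (F ^ (4 * t) : ℕ) := by positivity
    have a3 : (2 : ℝ) * (k * (t : ℝ) ^ k * ((2 * (F ^ 2) ^ t : ℕ) + (F ^ 2 : ℕ))) ≤
        (F ^ (4 * t) : ℕ) := by exact_mod_cast a1
    have a4 : k * (t : ℝ) ^ k * ((2 * (F ^ 2) ^ t : ℕ) + (F ^ 2 : ℕ)) / (F ^ (4 * t) : ℕ) ≤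
        1 / 2 := by
      rw [div_le_iff₀ a2]
      linarith
    linarith
  refine le_c1 fun f hf => ?_
  have key := sys_bound s (lt_of_lt_of_le (by omega) (q1 0)) (by positivity) (by positivity) n1 f hf
  obtain ⟨L1, L2, p1, p2, hD, -, -⟩ := dist_facts f hf
  have D0 : 0 ≤ distortion f := by rw [hD]; positivity
  have e1 : (F ^ (4 * t) * d) ^ k = 2 ^ k * (F ^ (4 * t) * (12 * t)) ^ k := by
    rw [← mul_pow, hd]
    congr 1
    ring
  have g0 : (0 : ℝ) < ((F ^ (4 * t) * (12 * t)) ^ k : ℕ) := by positivity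
  rw [e1] at key
  generalize ((F ^ (4 * t) * (12 * t)) ^ k : ℕ) = g at key g0
  have c0 : 0 ≤ (1 / 2 + k * (t : ℝ) ^ k * ((2 * (F ^ 2) ^ t : ℕ) + (F ^ 2 : ℕ)) /
    (F ^ (4 * t) : ℕ)) := by positivity
  generalize (1 / 2 + k * (t : ℝ) ^ k * ((2 * (F ^ 2) ^ t : ℕ) + (F ^ 2 : ℕ)) /
    (F ^ (4 * t) : ℕ)) = C at key c1' c0
  have l2 : (2 * ((F ^ 2 + k * d : ℕ) : ℝ) + 4) ≤ (F ^ 3 : ℕ) := by exact_mod_cast l1
  have k1 : (t : ℝ) ^ k * g ≤ 8 * ((F ^ 3 : ℕ) : ℝ) ^ 2 * (1 * (2 ^ k * g : ℕ)) * distortion f := by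
    refine key.trans ?_
    gcongr
  have k2 : 8 * (F ^ 3) ^ 2 * 2 ^ k * t ^ (t ^ 2) ≤ t ^ k := by
    have a1 : 2 ^ k ≤ t ^ (12 * t ^ 2) := by
      calc 2 ^ k = (2 ^ 2) ^ (12 * t ^ 2) := by rw [← pow_mul, hk]; congr 1; ring
        _ ≤ t ^ (12 * t ^ 2) := Nat.pow_le_pow_left (by omega) _
    calc 8 * (F ^ 3) ^ 2 * 2 ^ k * t ^ (t ^ 2) ≤
          t * ((t ^ (72 * t)) ^ 3) ^ 2 * t ^ (12 * t ^ 2) * t ^ (t ^ 2) := by
          gcongr
          omega
      _ = t ^ (1 + 432 * t + 13 * t ^ 2) := by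
          rw [← pow_mul, ← pow_mul, ← pow_succ', ← pow_add, ← pow_add]
          congr 1
          ring
      _ ≤ t ^ k := by
          refine Nat.pow_le_pow_right t0 ?_
          have : 40 * t ≤ t ^ 2 := by
            rw [sq]
            exact Nat.mul_le_mul_right _ ht
          omega
  have k3 : (8 : ℝ) * ((F ^ 3 : ℕ) : ℝ) ^ 2 * 2 ^ k * (t : ℝ) ^ (t ^ 2) ≤ (t : ℝ) ^ k := by
    exact_mod_cast k2
  have k4 : (0 : ℝ) < 8 * ((F ^ 3 : ℕ) : ℝ) ^ 2 * 2 ^ k * g := by positivity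
  refine le_of_mul_le_mul_left ?_ k4
  calc 8 * ((F ^ 3 : ℕ) : ℝ) ^ 2 * 2 ^ k * g * (t : ℝ) ^ (t ^ 2)
      = (8 : ℝ) * ((F ^ 3 : ℕ) : ℝ) ^ 2 * 2 ^ k * (t : ℝ) ^ (t ^ 2) * g := by ring
    _ ≤ (t : ℝ) ^ k * g := mul_le_mul_of_nonneg_right k3 g0.le
    _ ≤ _ := k1.trans (le_of_eq (by push_cast; ring))

theorem exists_param {A t0 n : ℕ} (hA : 0 < A) (h0 : 0 < t0) (hn : t0 ^ (A * t0 ^ 4) ≤ n) :
    ∃ t, t0 ≤ t ∧ t ^ (A * t ^ 4) ≤ n ∧ n < (t + 1) ^ (A * (t + 1) ^ 4) := by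
  classical
  have hex : ∃ j, n < (t0 + j + 1) ^ (A * (t0 + j + 1) ^ 4) :=
    ⟨n, lt_of_lt_of_le (by omega : n < t0 + n + 1) (Nat.le_self_pow (by positivity) _)⟩
  refine ⟨t0 + Nat.find hex, by omega, ?_, Nat.find_spec hex⟩
  rcases h : Nat.find hex with _ | j
  · exact hn
  · exact not_lt.1 (Nat.find_min hex (by omega : j < Nat.find hex))

theorem asymp {A t n : ℕ} (hA : 0 < A) (ht : 32 * A ≤ t) (h1 : t ^ (A * t ^ 4) ≤ n)
    (h2 : n < (t + 1) ^ (A * (t + 1) ^ 4)) :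
    Real.log n * Real.log (Real.log n) ≤ 192 * A * ((t : ℝ) ^ 2 * Real.log t) ^ 2 := by
  have t1 : (32 : ℝ) ≤ t := by exact_mod_cast (by omega : 32 ≤ t)
  have tA : (32 : ℝ) * A ≤ t := by exact_mod_cast ht
  have A1 : (1 : ℝ) ≤ A := by exact_mod_cast hA
  have n0 : 0 < n := lt_of_lt_of_le (Nat.pow_pos (by omega)) h1
  have n1 : (1 : ℝ) ≤ n := by exact_mod_cast n0
  have l0 : 0 ≤ Real.log t := Real.log_nonneg (by linarith)
  have l1 : Real.log t ≤ t := (Real.log_le_sub_one_of_pos (by linarith)).trans (by linarith)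
  have a1 : Real.log n ≤ 32 * A * (t : ℝ) ^ 4 * Real.log t := by
    have b1 : (n : ℝ) ≤ ((t : ℝ) + 1) ^ (A * (t + 1) ^ 4) := by exact_mod_cast h2.le
    have b2 := Real.log_le_log (by linarith) b1
    rw [Real.log_pow] at b2
    have b3 : Real.log ((t : ℝ) + 1) ≤ 2 * Real.log t := by
      have := Real.log_le_log (by linarith) (by nlinarith : (t : ℝ) + 1 ≤ t ^ 2)
      rwa [Real.log_pow] at this
    have b4 : ((t : ℝ) + 1) ^ 4 ≤ (2 * t) ^ 4 := pow_le_pow_left₀ (by linarith) (by linarith) 4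
    have b5 : 0 ≤ Real.log ((t : ℝ) + 1) := Real.log_nonneg (by linarith)
    push_cast at b2
    calc Real.log n ≤ A * ((t : ℝ) + 1) ^ 4 * Real.log ((t : ℝ) + 1) := b2
      _ ≤ A * (2 * (t : ℝ)) ^ 4 * (2 * Real.log t) := by gcongr
      _ = _ := by ring
  have a0 : 0 ≤ Real.log n := Real.log_nonneg n1
  have a2 : Real.log (Real.log n) ≤ 6 * Real.log t := by
    rcases a0.eq_or_lt with h | h
    · rw [← h, Real.log_zero]
      positivity
    · have b1 : Real.log n ≤ (t : ℝ) ^ 6 := by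
        calc Real.log n ≤ 32 * A * (t : ℝ) ^ 4 * Real.log t := a1
          _ ≤ t * (t : ℝ) ^ 4 * t := by gcongr
          _ = _ := by ring
      have := Real.log_le_log h b1
      rwa [Real.log_pow] at this
  calc Real.log n * Real.log (Real.log n) ≤ Real.log n * (6 * Real.log t) := by gcongr
    _ ≤ 32 * A * (t : ℝ) ^ 4 * Real.log t * (6 * Real.log t) := by gcongr
    _ = _ := by ring

theorem lower_bound : ∃ c : ℝ, 0 < c ∧ ∃ n₀ : ℕ, ∀ n ≥ n₀,
    Real.exp (c * √(Real.log n * Real.log (Real.log n))) ≤ c1 n := by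
  obtain ⟨t0, h0⟩ : ∃ t0 : ℕ, 276480 ≤ t0 := ⟨276480, Nat.le_refl _⟩
  refine ⟨1 / 1300, by norm_num, t0 ^ (8640 * t0 ^ 4), fun n hn => ?_⟩
  obtain ⟨t, h1, h2, h3⟩ := exists_param (A := 8640) (t0 := t0) (by norm_num) (by omega) hn
  refine le_trans ?_ (param_bound t (by omega) h2)
  have a1 := asymp (A := 8640) (t := t) (by norm_num) (by omega) h2 h3
  have t1 : (1 : ℝ) ≤ t := by exact_mod_cast (by omega : 1 ≤ t)
  have l0 : 0 ≤ Real.log t := Real.log_nonneg t1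
  clear h0 h1 h2 h3 hn
  have a2 : √(Real.log n * Real.log (Real.log n)) ≤ 1300 * ((t : ℝ) ^ 2 * Real.log t) := by
    refine Real.sqrt_le_iff.2 ⟨by positivity, a1.trans ?_⟩
    rw [mul_pow (1300 : ℝ)]
    gcongr
    norm_num
  rw [← Real.exp_log (by positivity : (0 : ℝ) < (t : ℝ) ^ (t ^ 2)), Real.log_pow]
  refine Real.exp_le_exp.2 ?_
  push_cast
  linarith

end Vale.Agent.P238
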