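import Vale.Agent.P238.Lists

open List

namespace Vale.Agent.P238

variable {α : Type} {d : ℕ} [NeZero d]

/-- One row of blocks. -/
def row (X : Fin d → List α) : List α := cat (fun j => X (Fin.ofNat d j)) 0 d

/-- `M` rows of `d` blocks. -/
def cat2 (M : ℕ) (X : ℕ → Fin d → List α) : List α := cat (fun τ => row (X τ)) 0 M

theorem row_length {X : Fin d → List α} {len : ℕ} (h : ∀ i, (X i).length = len) :
    (row X).length = d * len := cat_length (fun _ => h _) _ _

theorem cat2_length {M : ℕ} {X : ℕ → Fin d → List α} {len : ℕ} (h : ∀ τ i, (X τ i).length = len) :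
    (cat2 M X).length = M * (d * len) := cat_length (fun _ => row_length (h _)) _ _

theorem mem_cat2 {M : ℕ} {X : ℕ → Fin d → List α} {a : α} (h : a ∈ cat2 M X) :
    ∃ τ i, a ∈ X τ i := by
  obtain ⟨τ, h⟩ := mem_cat _ _ h
  obtain ⟨j, h⟩ := mem_cat _ _ h
  exact ⟨τ, _, h⟩

theorem Cl.row {X Y : Fin d → List α} {r : Fin d → ℕ} (h : ∀ i, Cl (X i) (Y i) (r i)) :
    Cl (row X) (row Y) (∑ i, r i) := by
  have := Cl.cat (X := fun j => X (Fin.ofNat d j)) (Y := fun j => Y (Fin.ofNat d j))
    (r := fun j => r (Fin.ofNat d j)) (fun j => h _) d 0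
  refine this.mono (le_of_eq ?_)
  rw [Finset.sum_range]
  refine Finset.sum_congr rfl fun i _ => ?_
  simp

theorem Cl.cat2 {M : ℕ} {X Y : ℕ → Fin d → List α} {r : Fin d → ℕ}
    (h : ∀ τ i, Cl (X τ i) (Y τ i) (r i)) : Cl (cat2 M X) (cat2 M Y) (M * ∑ i, r i) := by
  have := Cl.cat (X := fun τ => P238.row (X τ)) (Y := fun τ => P238.row (Y τ))
    (r := fun _ => ∑ i, r i) (fun τ => Cl.row (h τ)) M 0
  rw [Finset.sum_const, Finset.card_range, smul_eq_mul] at this
  exact this

theorem Cl.shift2 {M : ℕ} {X : ℕ → Fin d → List α} {len : ℕ} (h : ∀ τ i, (X τ i).length = len)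
    (δ : ℕ) : Cl (P238.cat2 M fun τ => X (δ + τ)) (P238.cat2 M X) (δ * (d * len)) := by
  have := Cl.shift (X := fun τ => P238.row (X τ)) (fun τ => row_length (h τ)) M δ
  have e : P238.cat2 M (fun τ => X (δ + τ)) = P238.cat (fun τ => P238.row (X τ)) δ M :=
    cat_congr _ _ _ fun j _ => by simp
  rw [e]
  exact this

theorem cat2_eq (M : ℕ) (X : ℕ → Fin d → List α) :
    cat2 M X = cat (fun b => X (b / d) (Fin.ofNat d b)) 0 (M * d) := by
  have hd : 0 < d := Nat.pos_of_ne_zero (NeZero.ne d)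
  induction M with
  | zero => simp [cat2, cat]
  | succ M ih =>
    rw [cat2, cat_add, add_mul, cat_add, ← ih, one_mul]
    congr 1
    simp only [cat, zero_add, append_nil, row]
    refine cat_congr _ _ _ fun j hj => ?_
    have h1 : (M * d + j) / d = M := by
      rw [add_comm, Nat.add_mul_div_right _ _ hd, Nat.div_eq_of_lt hj, zero_add]
    have h2 : Fin.ofNat d (M * d + j) = Fin.ofNat d (0 + j) := by
      ext
      simp
    rw [h1, h2]

omit [NeZero d] in
theorem succ_div_mod (hd : 0 < d) (b : ℕ) :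
    ((b + 1) / d = b / d ∧ (b + 1) % d = b % d + 1) ∨ ((b + 1) / d = b / d + 1) := by
  have h := Nat.div_add_mod b d
  have hm := Nat.mod_lt b hd
  by_cases hc : b % d + 1 < d
  · left
    exact (Nat.div_mod_unique hd).2 ⟨by omega, hc⟩
  · right
    exact ((Nat.div_mod_unique (c := 0) hd).2 ⟨by rw [mul_add]; omega, hd⟩).1

theorem pot_step (M E : ℕ) (Ag : ℕ → ℕ → Finset (Fin d))
    (hE : ∀ τ τ', τ ≤ M → τ' ≤ M → (Ag τ τ').card ≤ E) (b b' : ℕ) (hb : b < M * d)
    (hb' : b' < M * d) :
    (if b % d = b' % d ∧ Fin.ofNat d b ∈ Ag (b / d) (b' / d) then 1 else 0) +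
      (E * (2 * M - 1 - (b + 1) / d - b' / d) +
        ((Ag ((b + 1) / d) (b' / d)).filter fun i => max ((b + 1) % d) (b' % d) ≤ i.val).card) ≤
      E * (2 * M - 1 - b / d - b' / d) +
        ((Ag (b / d) (b' / d)).filter fun i => max (b % d) (b' % d) ≤ i.val).card := by
  have hd : 0 < d := Nat.pos_of_ne_zero (NeZero.ne d)
  have t1 : b / d < M := (Nat.div_lt_iff_lt_mul hd).2 hb
  have t2 : b' / d < M := (Nat.div_lt_iff_lt_mul hd).2 hb'
  have hmem : b % d = b' % d ∧ Fin.ofNat d b ∈ Ag (b / d) (b' / d) → Fin.ofNat d b ∈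
      ((Ag (b / d) (b' / d)).filter fun i => max (b % d) (b' % d) ≤ i.val) := by
    rintro ⟨h1, h2⟩
    simp only [Finset.mem_filter, h2, true_and, Fin.val_ofNat, ← h1, max_self, le_refl]
  rcases succ_div_mod hd b with ⟨h1, h2⟩ | h1
  · rw [h1, h2]
    have hsub : ((Ag (b / d) (b' / d)).filter fun i => max (b % d + 1) (b' % d) ≤ i.val) ⊆
        ((Ag (b / d) (b' / d)).filter fun i => max (b % d) (b' % d) ≤ i.val) := by
      intro i hi
      simp only [Finset.mem_filter] at hi ⊢
      exact ⟨hi.1, by omega⟩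
    split_ifs with hc
    · have := Finset.card_lt_card (Finset.ssubset_iff_of_subset hsub |>.2
        ⟨Fin.ofNat d b, hmem hc, by simp only [Finset.mem_filter, Fin.val_ofNat]; omega⟩)
      omega
    · have := Finset.card_le_card hsub
      omega
  · rw [h1]
    have k1 : ((Ag (b / d + 1) (b' / d)).filter
        fun i => max ((b + 1) % d) (b' % d) ≤ i.val).card ≤ E :=
      (Finset.card_filter_le _ _).trans (hE _ _ (by omega) (by omega))
    have k2 : E * (2 * M - 1 - b / d - b' / d) = E * (2 * M - 1 - (b / d + 1) - b' / d) + E := by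
      rw [← Nat.mul_succ]
      congr 1
      omega
    split_ifs with hc
    · have := Finset.card_pos.2 ⟨_, hmem hc⟩
      omega
    · omega

theorem far_cat2 (M len g E : ℕ) (X Y : ℕ → Fin d → List α) (Ag : ℕ → ℕ → Finset (Fin d))
    (hd : 2 ∣ d) (hE : ∀ τ τ', τ ≤ M → τ' ≤ M → (Ag τ τ').card ≤ E)
    (hlen : ∀ τ i, (X τ i).length = len)
    (hdis : ∀ τ τ' i i', i ≠ i' → ∀ z, z <+ X τ i → z <+ Y τ' i' → z = [])
    (hfar : ∀ τ τ' i, i ∉ Ag τ τ' → ∀ z, z <+ X τ i → z <+ Y τ' i → z.length + g ≤ len)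
    (hg : g ≤ len) (hM : 0 < M) (z : List α) (h1 : z <+ cat2 M X) (h2 : z <+ cat2 M Y) :
    z.length ≤ (len - g) * (M * d) + g * (2 * M * E) := by
  rw [cat2_eq] at h1 h2
  have hE' : ∀ τ τ', τ ≤ M → τ' ≤ M → ((fun τ τ' => Ag τ' τ) τ τ').card ≤ E :=
    fun τ τ' a b => hE τ' τ b a
  have key := path (M * d)
    (fun b b' => (len - g) * (if b % d = b' % d then 1 else 0) +
      g * (if b % d = b' % d ∧ Fin.ofNat d b ∈ Ag (b / d) (b' / d) then 1 else 0))
    (fun b b' => (len - g) * ((2 * (M * d) - (b + b')) / 2) +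
      g * (E * (2 * M - 1 - b / d - b' / d) +
        ((Ag (b / d) (b' / d)).filter fun i => max (b % d) (b' % d) ≤ i.val).card))
    ?_ ?_ ?_ _ (M * d) (M * d) 0 0 rfl (zero_add _) (zero_add _) z h1 h2
  · refine key.trans ?_
    simp only [add_zero, Nat.sub_zero, Nat.zero_div, Nat.zero_mod]
    have k1 := (Finset.card_filter_le (Ag 0 0) fun i => max 0 0 ≤ i.val).trans
      (hE 0 0 (Nat.zero_le _) (Nat.zero_le _))
    rw [Nat.mul_div_cancel_left _ (by norm_num : 0 < 2)]
    have k2 : E * (2 * M - 1) + E = 2 * M * E := by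
      rw [← Nat.mul_succ, mul_comm]
      congr 1
      omega
    refine Nat.add_le_add_left (Nat.mul_le_mul_left _ ?_) _
    omega
  · intro b b' _ _ w w1 w2
    by_cases hc : b % d = b' % d
    · have e : Fin.ofNat d b' = Fin.ofNat d b := by
        ext
        simp [hc]
      rw [e] at w2
      by_cases ha : Fin.ofNat d b ∈ Ag (b / d) (b' / d)
      · have := w1.length_le
        rw [hlen] at this
        simp only [hc, ha, and_self, if_true]
        omega
      · have := hfar _ _ _ ha w w1 w2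
        simp only [hc, ha, and_false, if_true, if_false]
        omega
    · have e : Fin.ofNat d b ≠ Fin.ofNat d b' := by
        intro h
        exact hc (by simpa using congrArg Fin.val h)
      rw [hdis _ _ _ _ e w w1 w2]
      simp
  · intro b b' hb hb'
    have k1 := pot_step M E Ag hE b b' hb hb'
    have k2 : (if b % d = b' % d then 1 else 0) + (2 * (M * d) - (b + 1 + b')) / 2 ≤
        (2 * (M * d) - (b + b')) / 2 := by
      split_ifs with hc
      · have a1 := Nat.mod_mod_of_dvd b hd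
        have a2 := Nat.mod_mod_of_dvd b' hd
        rw [hc] at a1
        omega
      · omega
    have k3 := Nat.mul_le_mul_left (len - g) k2
    have k4 := Nat.mul_le_mul_left g k1
    rw [mul_add] at k3 k4
    omega
  · intro b b' hb hb'
    have k1 := pot_step M E (fun τ τ' => Ag τ' τ) hE' b' b hb' hb
    have k2 : (if b % d = b' % d then 1 else 0) + (2 * (M * d) - (b + (b' + 1))) / 2 ≤
        (2 * (M * d) - (b + b')) / 2 := by
      split_ifs with hc
      · have a1 := Nat.mod_mod_of_dvd b hd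
        have a2 := Nat.mod_mod_of_dvd b' hd
        rw [hc] at a1
        omega
      · omega
    have e1 : (if b' % d = b % d ∧ Fin.ofNat d b' ∈ Ag (b / d) (b' / d) then 1 else 0) =
        (if b % d = b' % d ∧ Fin.ofNat d b ∈ Ag (b / d) (b' / d) then 1 else 0) := by
      by_cases hc : b % d = b' % d
      · have e : Fin.ofNat d b' = Fin.ofNat d b := by
          ext
          simp [hc]
        rw [e, hc]
      · simp [hc, Ne.symm hc]
    simp only [e1] at k1
    rw [max_comm ((b' + 1) % d), max_comm (b' % d), Nat.sub_right_comm _ (b' / d),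
      Nat.sub_right_comm _ ((b' + 1) / d)] at k1
    have k3 := Nat.mul_le_mul_left (len - g) k2
    have k4 := Nat.mul_le_mul_left g k1
    rw [mul_add] at k3 k4
    omega

end Vale.Agent.P238
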