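import Mathlib

open List

namespace Vale.Agent.P238

variable {α β : Type}

/-- `x` and `y` have a common subsequence that misses at most `r` letters of each. -/
def Cl (x y : List α) (r : ℕ) : Prop :=
  ∃ z, z <+ x ∧ z <+ y ∧ x.length ≤ z.length + r ∧ y.length ≤ z.length + r

theorem Cl.refl (x : List α) (r : ℕ) : Cl x x r :=
  ⟨x, Sublist.refl _, Sublist.refl _, by omega, by omega⟩

theorem Cl.of_eq {x y : List α} (h : x = y) (r : ℕ) : Cl x y r := h ▸ Cl.refl x r

theorem Cl.symm {x y : List α} {r : ℕ} (h : Cl x y r) : Cl y x r := by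
  obtain ⟨z, h1, h2, h3, h4⟩ := h
  exact ⟨z, h2, h1, h4, h3⟩

theorem Cl.mono {x y : List α} {r s : ℕ} (h : Cl x y r) (hrs : r ≤ s) : Cl x y s := by
  obtain ⟨z, h1, h2, h3, h4⟩ := h
  exact ⟨z, h1, h2, by omega, by omega⟩

theorem two_sub (y : List α) : ∀ z1 z2 : List α, z1 <+ y → z2 <+ y →
    ∃ z, z <+ z1 ∧ z <+ z2 ∧ z1.length + z2.length ≤ z.length + y.length := by
  induction y with
  | nil =>
    intro z1 z2 h1 h2
    rw [sublist_nil] at h1 h2
    subst h1; subst h2
    exact ⟨[], Sublist.refl _, Sublist.refl _, by simp⟩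
  | cons a y ih =>
    intro z1 z2 h1 h2
    rcases sublist_cons_iff.1 h1 with g1 | ⟨r1, rfl, g1⟩
    · rcases sublist_cons_iff.1 h2 with g2 | ⟨r2, rfl, g2⟩
      · obtain ⟨z, a1, a2, a3⟩ := ih _ _ g1 g2
        exact ⟨z, a1, a2, by simp only [length_cons]; omega⟩
      · obtain ⟨z, a1, a2, a3⟩ := ih _ _ g1 g2
        exact ⟨z, a1, a2.cons _, by simp only [length_cons]; omega⟩
    · rcases sublist_cons_iff.1 h2 with g2 | ⟨r2, rfl, g2⟩
      · obtain ⟨z, a1, a2, a3⟩ := ih _ _ g1 g2
        exact ⟨z, a1.cons _, a2, by simp only [length_cons]; omega⟩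
      · obtain ⟨z, a1, a2, a3⟩ := ih _ _ g1 g2
        exact ⟨a :: z, a1.cons_cons _, a2.cons_cons _, by simp only [length_cons]; omega⟩

theorem Cl.trans {x y w : List α} {r s : ℕ} (h : Cl x y r) (h' : Cl y w s) : Cl x w (r + s) := by
  obtain ⟨z1, a1, a2, a3, a4⟩ := h
  obtain ⟨z2, b1, b2, b3, b4⟩ := h'
  obtain ⟨z, c1, c2, c3⟩ := two_sub y z1 z2 a2 b1
  exact ⟨z, c1.trans a1, c2.trans b2, by omega, by omega⟩

theorem Cl.append {x y x' y' : List α} {r s : ℕ} (h : Cl x y r) (h' : Cl x' y' s) :
    Cl (x ++ x') (y ++ y') (r + s) := by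
  obtain ⟨z1, a1, a2, a3, a4⟩ := h
  obtain ⟨z2, b1, b2, b3, b4⟩ := h'
  refine ⟨z1 ++ z2, a1.append b1, a2.append b2, ?_, ?_⟩ <;> simp only [length_append] <;> omega

theorem Cl.map {x y : List α} {r : ℕ} (h : Cl x y r) (f : α → β) : Cl (x.map f) (y.map f) r := by
  obtain ⟨z, a1, a2, a3, a4⟩ := h
  exact ⟨z.map f, a1.map f, a2.map f, by simpa using a3, by simpa using a4⟩

theorem Cl.of_len {x y : List α} {r : ℕ} (hx : x.length ≤ r) (hy : y.length ≤ r) : Cl x y r :=
  ⟨[], nil_sublist _, nil_sublist _, by simpa using hx, by simpa using hy⟩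

theorem Cl.of_sub {x y w : List α} {r : ℕ} (hx : x <+ w) (hy : y <+ w)
    (h1 : w.length ≤ x.length + r) (h2 : w.length ≤ y.length + r) : Cl x y r := by
  obtain ⟨z, c1, c2, c3⟩ := two_sub w x y hx hy
  exact ⟨z, c1, c2, by omega, by omega⟩

/-- A common subsequence of two images under an injective map comes from the preimages. -/
theorem sub_map_inj {f : α → β} (hf : Function.Injective f) {x y : List α} {z : List β}
    (h1 : z <+ x.map f) (h2 : z <+ y.map f) :
    ∃ z', z' <+ x ∧ z' <+ y ∧ z'.length = z.length := by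
  obtain ⟨z1, a1, rfl⟩ := sublist_map_iff.1 h1
  obtain ⟨z2, b1, b2⟩ := sublist_map_iff.1 h2
  have : z1 = z2 := (List.map_injective_iff.2 hf) b2
  subst this
  exact ⟨z1, a1, b1, by simp⟩

theorem sub_map_disj {f g : α → β} (hfg : ∀ a b, f a ≠ g b) {x y : List α} {z : List β}
    (h1 : z <+ x.map f) (h2 : z <+ y.map g) : z = [] := by
  cases z with
  | nil => rfl
  | cons c z =>
    have a1 : c ∈ x.map f := h1.subset (by simp)
    have a2 : c ∈ y.map g := h2.subset (by simp)
    obtain ⟨a, -, rfl⟩ := mem_map.1 a1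
    obtain ⟨b, -, hb⟩ := mem_map.1 a2
    exact absurd hb.symm (hfg a b)

/-- Concatenation of `X s, X (s+1), …, X (s+n-1)`. -/
def cat (X : ℕ → List α) : ℕ → ℕ → List α
  | _, 0 => []
  | s, n + 1 => X s ++ cat X (s + 1) n

theorem cat_add (X : ℕ → List α) (n m : ℕ) :
    ∀ s, cat X s (n + m) = cat X s n ++ cat X (s + n) m := by
  induction n with
  | zero => intro s; simp [cat]
  | succ n ih =>
    intro s
    have : n + 1 + m = (n + m) + 1 := by omega
    rw [this, cat, cat, ih, append_assoc]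
    congr 3
    omega

theorem cat_congr {X Y : ℕ → List α} (n : ℕ) :
    ∀ s s', (∀ j < n, X (s + j) = Y (s' + j)) → cat X s n = cat Y s' n := by
  induction n with
  | zero => intro s s' _; rfl
  | succ n ih =>
    intro s s' h
    rw [cat, cat, ih (s + 1) (s' + 1) fun j hj => ?_]
    · congr 1
      exact h 0 (by omega)
    · have := h (j + 1) (by omega)
      rwa [show s + (j + 1) = s + 1 + j by omega, show s' + (j + 1) = s' + 1 + j by omega] at this

theorem cat_length {X : ℕ → List α} {len : ℕ} (h : ∀ j, (X j).length = len) (n : ℕ) :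
    ∀ s, (cat X s n).length = n * len := by
  induction n with
  | zero => intro s; simp [cat]
  | succ n ih => intro s; rw [cat, length_append, h, ih]; ring

theorem mem_cat {X : ℕ → List α} {a : α} (n : ℕ) : ∀ s, a ∈ cat X s n → ∃ j, a ∈ X j := by
  induction n with
  | zero => intro s h; simp [cat] at h
  | succ n ih =>
    intro s h
    rw [cat, mem_append] at h
    rcases h with h | h
    · exact ⟨s, h⟩
    · exact ih _ h

theorem Cl.cat {X Y : ℕ → List α} {r : ℕ → ℕ} (h : ∀ j, Cl (X j) (Y j) (r j)) (n : ℕ) :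
    ∀ s, Cl (cat X s n) (cat Y s n) (∑ j ∈ Finset.range n, r (s + j)) := by
  induction n with
  | zero => intro s; exact Cl.refl _ _
  | succ n ih =>
    intro s
    rw [Finset.sum_range_succ']
    have := (h s).append (ih (s + 1))
    simp only [add_zero]
    refine this.mono (le_of_eq ?_)
    rw [add_comm (r s)]
    congr 1
    refine Finset.sum_congr rfl fun j _ => ?_
    congr 1
    omega

theorem Cl.shift {X : ℕ → List α} {len : ℕ} (h : ∀ j, (X j).length = len) (n δ : ℕ) :
    Cl (P238.cat X δ n) (P238.cat X 0 n) (δ * len) := by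
  refine Cl.of_sub (w := P238.cat X 0 (δ + n)) ?_ ?_ ?_ ?_
  · rw [cat_add, zero_add]; exact sublist_append_right _ _
  · rw [add_comm, cat_add]; exact sublist_append_left _ _
  · rw [cat_length h, cat_length h]; nlinarith
  · rw [cat_length h, cat_length h]; nlinarith

/-- The monotone path bound for a common subsequence of two concatenations. -/
theorem path {X Y : ℕ → List α} (N : ℕ) (c : ℕ → ℕ → ℕ) (Φ : ℕ → ℕ → ℕ)
    (hc : ∀ b b', b < N → b' < N → ∀ z, z <+ X b → z <+ Y b' → z.length ≤ c b b')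
    (h1 : ∀ b b', b < N → b' < N → c b b' + Φ (b + 1) b' ≤ Φ b b')
    (h2 : ∀ b b', b < N → b' < N → c b b' + Φ b (b' + 1) ≤ Φ b b') (T : ℕ) :
    ∀ n n' b b', n + n' = T → b + n = N → b' + n' = N →
      ∀ z, z <+ cat X b n → z <+ cat Y b' n' → z.length ≤ Φ b b' := by
  induction T with
  | zero =>
    intro n n' b b' hT _ _ z hz _
    have : n = 0 := by omega
    subst this
    simp [cat] at hz
    simp [hz]
  | succ T ih =>
    intro n n' b b' hT hb hb' z hz hz'
    rcases n with _ | n
    · simp [cat] at hz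
      simp [hz]
    rcases n' with _ | n'
    · simp [cat] at hz'
      simp [hz']
    rw [cat] at hz hz'
    obtain ⟨z1, z2, e1, a1, a2⟩ := sublist_append_iff.1 hz
    obtain ⟨w1, w2, e2, b1, b2⟩ := sublist_append_iff.1 hz'
    rw [e1] at e2
    rcases append_eq_append_iff.1 e2 with ⟨u, rfl, rfl⟩ | ⟨u, rfl, rfl⟩
    · have k1 := hc b b' (by omega) (by omega) z1 a1 ((sublist_append_left _ _).trans b1)
      have k2 := ih n (n' + 1) (b + 1) b' (by omega) (by omega) hb' (u ++ w2) a2
        (by rw [cat]; exact ((sublist_append_right _ _).trans b1).append b2)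
      have k3 := h1 b b' (by omega) (by omega)
      rw [e1, length_append]
      omega
    · have k1 := hc b b' (by omega) (by omega) w1 ((sublist_append_left _ _).trans a1) b1
      have k2 := ih (n + 1) n' b (b' + 1) (by omega) hb (by omega) (u ++ z2)
        (by rw [cat]; exact ((sublist_append_right _ _).trans a1).append a2) b2
      have k3 := h2 b b' (by omega) (by omega)
      rw [e1, append_assoc, length_append]
      omega

end Vale.Agent.P238
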