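import Vale.Agent.P238.Sys

open List

namespace Vale.Agent.P238

variable {d : ℕ} [NeZero d] {q : Fin (d + 1) → ℕ} [hq : ∀ a, NeZero (q a)]
  {qb M : ℕ} {G Mv : Type} [AddCommGroup G] [Fintype Mv] {len g l : ℕ} {W C : ℝ}

/-- The block in row `τ` and column `i` of the next level. -/
def blk (s : Sys q qb M G Mv len g l W C) (a : Fin (d + 1)) (x : ZB q × (Fin d → G)) (τ : ℕ)
    (i : Fin d) : List (List Bool) :=
  (s.S (a.succAbove i) (x.2 i + s.e (res q (a.succAbove i) (x.1 + τ) • s.h (a.succAbove i)))).map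
    (tag i)

/-- The product of the moduli other than the `a`-th. -/
def bb (q : Fin (d + 1) → ℕ) (a : Fin (d + 1)) : ℕ := ∏ i, q (a.succAbove i)

/-- The compensated move. -/
def cmv (s : Sys q qb M G Mv len g l W C) (a : Fin (d + 1)) (u : ZB q) : ZB q × (Fin d → G) :=
  (u, fun i => -s.e (res q (a.succAbove i) u • s.h (a.succAbove i)))

omit [NeZero d] hq in
theorem blk_length (s : Sys q qb M G Mv len g l W C) (a x τ i) : (blk s a x τ i).length = len := by
  rw [blk, length_map, s.hlen]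

omit [NeZero d] hq in
theorem blk_shift (s : Sys q qb M G Mv len g l W C) (a x) (δ τ : ℕ) :
    blk s a (x + (((δ : ℕ) : ZB q), 0)) τ = blk s a x (δ + τ) := by
  funext i
  simp only [blk, Prod.fst_add, Prod.snd_add, add_zero, Nat.cast_add, add_assoc]

theorem step_wrap (s : Sys q qb M G Mv len g l W C) (hqb : ∀ a, q a ≤ qb) (a x) :
    Cl (cat2 M (blk s a (x + (q a • ((bb q a / q a : ℕ) : ZB q), 0)))) (cat2 M (blk s a x))
      (qb * (d * len)) := by
  have e : blk s a x =
      fun τ => blk s a (x + (q a • ((bb q a / q a : ℕ) : ZB q), 0)) (bb q a % q a + τ) := by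
    funext τ i
    have h1 : x.1 + q a • ((bb q a / q a : ℕ) : ZB q) + ((bb q a % q a + τ : ℕ) : ZB q) =
        x.1 + τ + (bb q a : ℕ) := by
      conv_rhs => rw [← Nat.div_add_mod (bb q a) (q a)]
      push_cast
      ring
    simp only [blk, Prod.fst_add, Prod.snd_add, add_zero]
    rw [h1, res_add_of_dvd q _ _ (n := bb q a)
      (Finset.dvd_prod_of_mem (fun i => q (a.succAbove i)) (Finset.mem_univ i))]
  conv => enter [2]; rw [e]
  refine (Cl.shift2 (blk_length s a _) _).symm.mono (Nat.mul_le_mul_right _ ?_)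
  exact (Nat.mod_lt _ (Nat.pos_of_ne_zero (NeZero.ne _))).le.trans (hqb a)

omit hq in
theorem step_child (s : Sys q qb M G Mv len g l W C) (a x) (i : Fin d) (μ : Mv) :
    Cl (cat2 M (blk s a (x + (0, Pi.single i (s.c (a.succAbove i) μ))))) (cat2 M (blk s a x))
      (M * s.cost (a.succAbove i) μ) := by
  have := Cl.cat2 (M := M) (X := blk s a (x + (0, Pi.single i (s.c (a.succAbove i) μ))))
    (Y := blk s a x) (r := fun j => if j = i then s.cost (a.succAbove i) μ else 0) ?_
  · simpa using this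
  intro τ j
  by_cases hj : j = i
  · subst hj
    simp only [blk, Prod.fst_add, Prod.snd_add, add_zero, Pi.add_apply, Pi.single_eq_same, if_true]
    rw [add_right_comm]
    exact (s.move _ _ _).map _
  · simp only [blk, Prod.fst_add, Prod.snd_add, add_zero, Pi.add_apply, Pi.single_eq_of_ne hj]
    exact Cl.refl _ _

omit hq in
theorem step_shift (s : Sys q qb M G Mv len g l W C) (a x) (δ : ℕ) :
    Cl (cat2 M (blk s a (x + (((δ : ℕ) : ZB q), 0)))) (cat2 M (blk s a x)) (δ * (d * len)) := by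
  have e : blk s a (x + (((δ : ℕ) : ZB q), 0)) = fun τ => blk s a x (δ + τ) :=
    funext fun τ => blk_shift s a x δ τ
  rw [e]
  exact Cl.shift2 (blk_length s a _) _

theorem step_cmv (s : Sys q qb M G Mv len g l W C) (a x) (u : ZB q) :
    Cl (cat2 M (blk s a (x + cmv s a u))) (cat2 M (blk s a x)) (M * (d * s.r)) := by
  have := Cl.cat2 (M := M) (X := blk s a (x + cmv s a u)) (Y := blk s a x) (r := fun _ => s.r) ?_
  · simpa using this
  intro τ j
  simp only [blk, cmv, Prod.fst_add, Prod.snd_add, Pi.add_apply]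
  refine Cl.map ?_ _
  rw [add_right_comm x.1]
  rcases res_add q (a.succAbove j) (x.1 + τ) u with h | h
  · refine Cl.of_eq ?_ _
    rw [h, add_smul, map_add]
    congr 1
    abel
  · have e : x.2 j + s.e (res q (a.succAbove j) (x.1 + τ) • s.h (a.succAbove j)) =
        x.2 j + -s.e (res q (a.succAbove j) u • s.h (a.succAbove j)) +
          s.e (res q (a.succAbove j) (x.1 + τ + u) • s.h (a.succAbove j)) +
          s.e (q (a.succAbove j) • s.h (a.succAbove j)) := by
      rw [add_assoc, ← map_add, ← add_smul, h, add_smul, map_add]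
      abel
    rw [e]
    exact (s.wrap _ _).symm

omit [NeZero d] in
theorem agree_card {F E : ℕ} (hcop : Pairwise (Function.onFun Nat.Coprime q))
    (hF : ∀ a, F ≤ q a) (hF1 : 1 < F) (hqb : ∀ a, q a ≤ qb) (hM : qb ≤ M)
    (hE : 2 * qb * M < F ^ (E + 1)) (a : Fin (d + 1)) (t : ZB q) {m m' τ τ' : ℕ} (hm : m < q a)
    (hm' : m' < q a) (hne : m ≠ m') (hτ : τ ≤ M) (hτ' : τ' ≤ M) :
    (Finset.univ.filter fun i : Fin d => res q (a.succAbove i) (t + (m * (bb q a / q a) + τ : ℕ)) =
      res q (a.succAbove i) (t + (m' * (bb q a / q a) + τ' : ℕ))).card ≤ E := by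
  set I := (Finset.univ.filter fun i : Fin d =>
    res q (a.succAbove i) (t + (m * (bb q a / q a) + τ : ℕ)) =
      res q (a.succAbove i) (t + (m' * (bb q a / q a) + τ' : ℕ))) with hI
  set δ := bb q a % q a with hδ
  set ee : ℤ := ((m : ℤ) - m') * δ + q a * ((τ' : ℤ) - τ) with hee
  have hdm : (q a : ℤ) * (bb q a / q a : ℕ) + δ = bb q a := by
    exact_mod_cast Nat.div_add_mod (bb q a) (q a)
  have hdiv : ∀ i ∈ I, q (a.succAbove i) ∣ ee.natAbs := by
    intro i hi
    have h1 := dvd_of_res_eq q _ _ (Finset.mem_filter.1 hi).2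
    have h2 : (q (a.succAbove i) : ℤ) ∣ bb q a := by
      exact_mod_cast Finset.dvd_prod_of_mem (fun i => q (a.succAbove i)) (Finset.mem_univ i)
    rw [← Int.natCast_dvd]
    have e : ee = q a * (((m' * (bb q a / q a) + τ' : ℕ) : ℤ) - (m * (bb q a / q a) + τ : ℕ)) +
        ((m : ℤ) - m') * bb q a := by
      rw [hee, ← hdm]
      push_cast
      ring
    rw [e]
    exact (h1.mul_left _).add (h2.mul_left _)
  have hprod : ∏ i ∈ I, q (a.succAbove i) ∣ ee.natAbs :=
    Finset.prod_dvd_of_isRelPrime (fun i _ j _ hij => Nat.coprime_iff_isRelPrime.1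
      (hcop (a.succAbove_right_injective.ne hij))) hdiv
  have hcb : Nat.Coprime (q a) (bb q a) :=
    Nat.Coprime.prod_right fun i _ => hcop (a.succAbove_ne i).symm
  have hcδ : Nat.Coprime (q a) δ := by
    rw [hδ, Nat.Coprime, Nat.gcd_comm, ← Nat.gcd_rec]
    exact hcb
  have hne0 : ee ≠ 0 := by
    intro h0
    have h1 : (q a : ℤ) ∣ ((m : ℤ) - m') * δ :=
      ⟨-((τ' : ℤ) - τ), by rw [hee] at h0; linarith⟩
    have h2 := (Nat.isCoprime_iff_coprime.2 hcδ).dvd_of_dvd_mul_right h1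
    have h3 := Int.eq_zero_of_abs_lt_dvd h2 (by rw [abs_lt]; constructor <;> omega)
    omega
  have hδlt : δ ≤ qb := (Nat.mod_lt _ (Nat.pos_of_ne_zero (NeZero.ne _))).le.trans (hqb a)
  have hle : ee.natAbs ≤ 2 * qb * M := by
    have k1 : ((m : ℤ) - m').natAbs ≤ M := by have := hqb a; omega
    have k2 : ((τ' : ℤ) - τ).natAbs ≤ M := by omega
    calc ee.natAbs ≤ (((m : ℤ) - m') * δ).natAbs + ((q a : ℤ) * ((τ' : ℤ) - τ)).natAbs :=
          Int.natAbs_add_le _ _
      _ = ((m : ℤ) - m').natAbs * δ + q a * ((τ' : ℤ) - τ).natAbs := by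
          simp only [Int.natAbs_mul, Int.natAbs_natCast]
      _ ≤ M * qb + qb * M := Nat.add_le_add (Nat.mul_le_mul k1 hδlt) (Nat.mul_le_mul (hqb a) k2)
      _ = 2 * qb * M := by ring
  have h1 := Nat.le_of_dvd (Int.natAbs_pos.2 hne0) hprod
  have h2 : F ^ I.card ≤ ∏ i ∈ I, q (a.succAbove i) :=
    Finset.pow_card_le_prod _ _ _ fun i _ => hF _
  have h3 : F ^ I.card < F ^ (E + 1) := by omega
  have := (Nat.pow_lt_pow_iff_right hF1).1 h3
  omega

theorem step_far (s : Sys q qb M G Mv len g l W C) {F E d2 : ℕ}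
    (hcop : Pairwise (Function.onFun Nat.Coprime q))
    (hF : ∀ a, F ≤ q a) (hF1 : 1 < F) (hqb : ∀ a, q a ≤ qb) (hM : qb ≤ M)
    (hE : 2 * qb * M < F ^ (E + 1)) (hd : d = 2 * d2) (hEd : 2 * E ≤ d2) (hg : g ≤ len)
    (a : Fin (d + 1)) (x : ZB q × (Fin d → G)) {m m' : ℕ} (hm : m < q a)
    (hm' : m' < q a) (hne : m ≠ m') (z : List (List Bool))
    (h1 : z <+ cat2 M (blk s a (x + (m • ((bb q a / q a : ℕ) : ZB q), 0))))
    (h2 : z <+ cat2 M (blk s a (x + (m' • ((bb q a / q a : ℕ) : ZB q), 0)))) :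
    z.length + M * (d2 * g) ≤ M * (d * len) := by
  have hM0 : 0 < M := by have := hF a; have := hqb a; omega
  have key := far_cat2 M len g E _ _
    (fun τ τ' => Finset.univ.filter fun i : Fin d =>
      res q (a.succAbove i) (x.1 + (m * (bb q a / q a) + τ : ℕ)) =
      res q (a.succAbove i) (x.1 + (m' * (bb q a / q a) + τ' : ℕ))) ⟨d2, hd⟩
    (fun τ τ' hτ hτ' => agree_card hcop hF hF1 hqb hM hE a x.1 hm hm' hne hτ hτ')
    (blk_length s a _) (fun τ τ' i i' hi z z1 z2 => sub_map_disj (tag_ne hi) z1 z2) ?_ hg hM0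
    z h1 h2
  · obtain ⟨p, rfl⟩ := Nat.exists_eq_add_of_le hg
    rw [Nat.add_sub_cancel_left] at key
    have k1 : g * (2 * M * E) ≤ M * (d2 * g) := by
      calc g * (2 * M * E) = M * (2 * E * g) := by ring
        _ ≤ M * (d2 * g) := Nat.mul_le_mul_left _ (Nat.mul_le_mul_right _ hEd)
    have k2 : M * (d * (g + p)) = p * (M * d) + 2 * (M * (d2 * g)) := by
      rw [hd]
      ring
    omega
  · intro τ τ' i hi w w1 w2
    obtain ⟨w', a1, a2, a3⟩ := sub_map_inj (tag_inj i) w1 w2
    rw [← a3]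
    simp only [Prod.fst_add, Prod.snd_add, add_zero] at a1 a2
    refine s.far _ _ _ _ (res_lt q _ _) (res_lt q _ _) ?_ w' a1 a2
    intro h
    apply hi
    simp only [Finset.mem_filter, Finset.mem_univ, true_and]
    simpa only [nsmul_eq_mul, Nat.cast_add, Nat.cast_mul, add_assoc] using h

end Vale.Agent.P238
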