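import Vale.Agent.P238.Grid

open List

namespace Vale.Agent.P238

/-- Unary code of `r` with `n` bits. -/
def un (n r : ℕ) : List Bool := replicate r true ++ replicate (n - r) false

theorem un_length {n r : ℕ} (h : r ≤ n) : (un n r).length = n := by
  simp only [un, length_append, length_replicate]
  omega

theorem un_inj {n r r' : ℕ} (h : un n r = un n r') : r = r' := by
  have := congrArg (List.count true) h
  simpa [un, List.count_replicate] using this

/-- Tagging a letter with the index of its block. -/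
def tag {d : ℕ} (i : Fin d) (σ : List Bool) : List Bool := un d i ++ σ

theorem tag_inj {d : ℕ} (i : Fin d) : Function.Injective (tag i) := fun _ _ h =>
  List.append_cancel_left h

theorem tag_ne {d : ℕ} {i j : Fin d} (h : i ≠ j) (σ σ' : List Bool) : tag i σ ≠ tag j σ' := by
  intro e
  have := (List.append_inj e (by rw [un_length i.2.le, un_length j.2.le])).1
  exact h (Fin.ext (un_inj this))

theorem tag_length {d : ℕ} (i : Fin d) (σ : List Bool) : (tag i σ).length = d + σ.length := by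
  rw [tag, length_append, un_length i.2.le]

theorem norm_one_sub_sq {z : ℂ} (h : ‖z‖ = 1) : ‖1 - z‖ ^ 2 = 2 - 2 * z.re := by
  have h2 : z.re ^ 2 + z.im ^ 2 = 1 := by
    have := Complex.sq_norm z
    rw [h, Complex.normSq_apply] at this
    nlinarith
  rw [Complex.sq_norm, Complex.normSq_apply]
  simp only [Complex.sub_re, Complex.one_re, Complex.sub_im, Complex.one_im]
  nlinarith

theorem sum_norm_sq {ι : Type} [Fintype ι] (φ : ι → ℂ) (h : ∀ i, ‖φ i‖ = 1) :
    ∑ i, ‖1 - φ i‖ ^ 2 = 2 * Fintype.card ι - 2 * (∑ i, φ i).re := by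
  simp only [norm_one_sub_sq (h _), Finset.sum_sub_distrib, Complex.re_sum, Finset.mul_sum]
  simp [mul_comm]

theorem geom_re_le {ω : ℂ} (h : ‖ω‖ = 1) (h1 : ω ≠ 1) {Q : ℕ} (hQ : 0 < Q) (hω : ω ^ Q = 1)
    (n : ℕ) : (∑ δ : Fin n, ω ^ (δ : ℕ)).re ≤ Q := by
  rw [← Finset.sum_range (fun δ => ω ^ δ), geom_sum_eq h1, pow_eq_pow_mod n hω,
    ← geom_sum_eq h1]
  refine (Complex.re_le_norm _).trans ((norm_sum_le _ _).trans ?_)
  simp only [norm_pow, h, one_pow, Finset.sum_const, Finset.card_range, nsmul_eq_mul, mul_one]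
  exact_mod_cast (Nat.mod_lt n hQ).le

variable {d : ℕ} (q : Fin (d + 1) → ℕ)

/-- The cyclic group of order the product of the moduli. -/
abbrev ZB : Type := ZMod (∏ a, q a)

/-- Reduction modulo one of the moduli. -/
def red (a : Fin (d + 1)) : ZB q →+* ZMod (q a) :=
  ZMod.castHom (Finset.dvd_prod_of_mem q (Finset.mem_univ a)) _

/-- The least residue modulo one of the moduli. -/
def res (a : Fin (d + 1)) (y : ZB q) : ℕ := (red q a y).val

variable [hq : ∀ a, NeZero (q a)]

instance : NeZero (∏ a, q a) := ⟨Finset.prod_ne_zero_iff.2 fun a _ => NeZero.ne (q a)⟩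

theorem res_lt (a : Fin (d + 1)) (y : ZB q) : res q a y < q a := ZMod.val_lt _

theorem res_add (a : Fin (d + 1)) (y u : ZB q) :
    res q a (y + u) = res q a y + res q a u ∨ res q a (y + u) + q a = res q a y + res q a u := by
  unfold res
  rw [map_add]
  by_cases h : (red q a y).val + (red q a u).val < q a
  · exact Or.inl (ZMod.val_add_of_lt h)
  · right
    rw [ZMod.val_add_val_of_le (not_lt.1 h)]

omit hq in
theorem res_add_of_dvd (a : Fin (d + 1)) (y : ZB q) {n : ℕ} (h : q a ∣ n) :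
    res q a (y + n) = res q a y := by
  unfold res
  rw [map_add, map_natCast, (ZMod.natCast_eq_zero_iff _ _).2 h, add_zero]

theorem dvd_of_res_eq (a : Fin (d + 1)) (y : ZB q) {n n' : ℕ}
    (h : res q a (y + n) = res q a (y + n')) : (q a : ℤ) ∣ (n' : ℤ) - n := by
  unfold res at h
  have h1 := ZMod.val_injective _ h
  rw [map_add, map_add, map_natCast, map_natCast, add_right_inj] at h1
  exact (Nat.modEq_iff_dvd).1 ((ZMod.natCast_eq_natCast_iff _ _ _).1 h1)

/-- A family of words indexed by a finite abelian group, with cheap moves and far pairs. -/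
structure Sys (qb M : ℕ) (G Mv : Type) [AddCommGroup G] [Fintype Mv] (len g l : ℕ)
    (W C : ℝ) where
  e : ZB q →+ G
  S : Fin (d + 1) → G → List (List Bool)
  h : Fin (d + 1) → ZB q
  r : ℕ
  c : Fin (d + 1) → Mv → G
  lam : Fin (d + 1) → Mv → ℝ
  cost : Fin (d + 1) → Mv → ℕ
  hlen : ∀ a θ, (S a θ).length = len
  hsym : ∀ a θ, ∀ σ ∈ S a θ, σ.length = l
  far : ∀ a θ m m', m < q a → m' < q a → m ≠ m' → ∀ z, z <+ S a (θ + e (m • h a)) →
    z <+ S a (θ + e (m' • h a)) → z.length + g ≤ len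
  wrap : ∀ a θ, Cl (S a (θ + e (q a • h a))) (S a θ) r
  hr : r * M ≤ qb * len
  lam0 : ∀ a μ, 0 ≤ lam a μ
  move : ∀ a μ θ, Cl (S a (θ + c a μ)) (S a θ) (cost a μ)
  hcost : ∀ a, ∑ μ, lam a μ * cost a μ ≤ C * len
  poinc : ∀ a (ψ : AddChar G ℂ), (∃ y, ψ (e y) ≠ 1) → W ≤ ∑ μ, lam a μ * ‖1 - ψ (c a μ)‖ ^ 2

/-- The words of length one. -/
noncomputable def base (qb M : ℕ) (hqb : ∀ a, q a ≤ qb) :
    Sys q qb M (ZB q) (ZB q) 1 1 qb 1 (1 / 2) where
  e := AddMonoidHom.id _
  S a θ := [un qb (res q a θ)]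
  h _ := 1
  r := 0
  c _ y := y
  lam _ _ := 1 / (2 * (∏ a, q a : ℕ))
  cost _ _ := 1
  hlen _ _ := rfl
  hsym a θ σ hσ := by
    rw [mem_singleton.1 hσ, un_length ((res_lt q a θ).le.trans (hqb a))]
  far a θ m m' hm hm' hne z h1 h2 := by
    cases z with
    | nil => simp
    | cons x z =>
      exfalso
      have a1 := mem_singleton.1 (h1.subset (mem_cons_self))
      have a2 := mem_singleton.1 (h2.subset (mem_cons_self))
      have a3 := un_inj (a1.symm.trans a2)
      simp only [AddMonoidHom.id_apply, nsmul_one] at a3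
      have a4 := dvd_of_res_eq q a θ a3
      have a5 := Int.eq_zero_of_abs_lt_dvd a4 (by rw [abs_lt]; constructor <;> omega)
      omega
  wrap a θ := by
    simp only [AddMonoidHom.id_apply, nsmul_one]
    rw [res_add_of_dvd q a θ dvd_rfl]
    exact Cl.refl _ _
  hr := by simp
  lam0 _ _ := by positivity
  move _ _ _ := Cl.of_len le_rfl le_rfl
  hcost _ := by
    have : ((∏ a, q a : ℕ) : ℝ) ≠ 0 := by exact_mod_cast NeZero.ne _
    simp only [Nat.cast_one, mul_one, Finset.sum_const, Finset.card_univ, ZMod.card, nsmul_eq_mul]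
    field_simp
    exact le_rfl
  poinc _ ψ hψ := by
    have : ((∏ a, q a : ℕ) : ℝ) ≠ 0 := by exact_mod_cast NeZero.ne _
    obtain ⟨y, hy⟩ := hψ
    have h0 : ψ ≠ 0 := by
      rintro rfl
      exact hy rfl
    rw [← Finset.mul_sum, sum_norm_sq _ fun y => AddChar.norm_apply ψ y,
      AddChar.sum_eq_zero_iff_ne_zero.2 h0, ZMod.card]
    simp only [Complex.zero_re, mul_zero, sub_zero]
    field_simp
    exact le_rfl

end Vale.Agent.P238
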